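import Vale.Agent.P224.S9.Z9.Dat
import Vale.Agent.P224.S9.Piv.All

/-!
The approximations of the coefficient functions.
-/

namespace Vale.Agent.P224.S9.Z9

open Vale.Agent.P224.POS Vale.Agent.P224.S9
open Vale.Agent.P224.SP (ev Q4)

noncomputable section

lemma br {r : Q4} {B : List ℤ} {E' : ℤ} {E : ℕ} {h : ℕ} {T : ℝ} (hE : E' = E)
    (hb : |(S9.DD : ℝ) * (G4 r T / ev DnL T) - ev B T| ≤ (E' : ℝ) * (1 - T) ^ h) :
    |(DD : ℝ) * (G4 r T / ev dl T) - ev B T| ≤ (E : ℝ) * (1 - T) ^ h := by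
  have e1 : ((S9.DD : ℤ) : ℝ) = ((DD : ℕ) : ℝ) := by
    have e2 : (S9.DD : ℤ) = ((DD : ℕ) : ℤ) := rfl
    rw [e2, Int.cast_natCast]
  have e3 : (E' : ℝ) = ((E : ℕ) : ℝ) := by rw [hE, Int.cast_natCast]
  have e4 : DnL = dl := rfl
  rw [e1, e3, e4] at hb
  exact hb

set_option maxRecDepth 20000 in
theorem hb0 : ∀ x ∈ lb, (!(x.L20.wm.isEmpty && x.L30.wm.isEmpty)) = true →
    ∀ T : ℝ, 0 < T → T < 1 →
      |(DD : ℝ) * (G4 x.N0 T / ev dl T) - ev x.B0 T| ≤ x.E0 * (1 - T) ^ x.h0 :=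
  List.forall_mem_cons.2 ⟨fun _ T h0 h1 => br (r := vb0.N0) (B := vb0.B0) (E := vb0.E0) (h := vb0.h0) rfl (K00.bd h0 h1),
  List.forall_mem_cons.2 ⟨fun _ T h0 h1 => br (r := vb1.N0) (B := vb1.B0) (E := vb1.E0) (h := vb1.h0) rfl (K01.bd h0 h1),
  List.forall_mem_cons.2 ⟨fun _ T h0 h1 => br (r := vb2.N0) (B := vb2.B0) (E := vb2.E0) (h := vb2.h0) rfl (K02.bd h0 h1),
  List.forall_mem_cons.2 ⟨fun _ T h0 h1 => br (r := vb3.N0) (B := vb3.B0) (E := vb3.E0) (h := vb3.h0) rfl (K03.bd h0 h1),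
  List.forall_mem_cons.2 ⟨fun _ T h0 h1 => br (r := vb4.N0) (B := vb4.B0) (E := vb4.E0) (h := vb4.h0) rfl (K04.bd h0 h1),
  List.forall_mem_cons.2 ⟨fun _ T h0 h1 => br (r := vb5.N0) (B := vb5.B0) (E := vb5.E0) (h := vb5.h0) rfl (K05.bd h0 h1),
  List.forall_mem_cons.2 ⟨fun _ T h0 h1 => br (r := vb6.N0) (B := vb6.B0) (E := vb6.E0) (h := vb6.h0) rfl (K06.bd h0 h1),
  List.forall_mem_cons.2 ⟨fun _ T h0 h1 => br (r := vb7.N0) (B := vb7.B0) (E := vb7.E0) (h := vb7.h0) rfl (K07.bd h0 h1),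
  List.forall_mem_cons.2 ⟨fun _ T h0 h1 => br (r := vb8.N0) (B := vb8.B0) (E := vb8.E0) (h := vb8.h0) rfl (K08.bd h0 h1),
  List.forall_mem_cons.2 ⟨fun _ T h0 h1 => br (r := vb9.N0) (B := vb9.B0) (E := vb9.E0) (h := vb9.h0) rfl (K09.bd h0 h1),
  fun x hx => absurd hx List.not_mem_nil⟩⟩⟩⟩⟩⟩⟩⟩⟩⟩

set_option maxRecDepth 20000 in
theorem hb1 : ∀ x ∈ lb, (!(x.L21.wm.isEmpty && x.L31.wm.isEmpty)) = true →
    ∀ T : ℝ, 0 < T → T < 1 →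
      |(DD : ℝ) * (G4 x.N1 T / ev dl T) - ev x.B1 T| ≤ x.E1 * (1 - T) ^ x.h1 :=
  List.forall_mem_cons.2 ⟨fun h => absurd h (by decide +kernel),
  List.forall_mem_cons.2 ⟨fun h => absurd h (by decide +kernel),
  List.forall_mem_cons.2 ⟨fun h => absurd h (by decide +kernel),
  List.forall_mem_cons.2 ⟨fun h => absurd h (by decide +kernel),
  List.forall_mem_cons.2 ⟨fun h => absurd h (by decide +kernel),
  List.forall_mem_cons.2 ⟨fun _ T h0 h1 => br (r := vb5.N1) (B := vb5.B1) (E := vb5.E1) (h := vb5.h1) rfl (K10.bd h0 h1),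
  List.forall_mem_cons.2 ⟨fun _ T h0 h1 => br (r := vb6.N1) (B := vb6.B1) (E := vb6.E1) (h := vb6.h1) rfl (K11.bd h0 h1),
  List.forall_mem_cons.2 ⟨fun _ T h0 h1 => br (r := vb7.N1) (B := vb7.B1) (E := vb7.E1) (h := vb7.h1) rfl (K12.bd h0 h1),
  List.forall_mem_cons.2 ⟨fun _ T h0 h1 => br (r := vb8.N1) (B := vb8.B1) (E := vb8.E1) (h := vb8.h1) rfl (K13.bd h0 h1),
  List.forall_mem_cons.2 ⟨fun _ T h0 h1 => br (r := vb9.N1) (B := vb9.B1) (E := vb9.E1) (h := vb9.h1) rfl (K14.bd h0 h1),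
  fun x hx => absurd hx List.not_mem_nil⟩⟩⟩⟩⟩⟩⟩⟩⟩⟩

set_option maxRecDepth 20000 in
theorem hbr : ∀ x ∈ rb, (!(x.L2.wm.isEmpty && x.L3.wm.isEmpty)) = true →
    ∀ T : ℝ, 0 < T → T < 1 →
      |(DD : ℝ) * (G4 x.N T / ev dl T) - ev x.B T| ≤ x.E * (1 - T) ^ x.h :=
  List.forall_mem_cons.2 ⟨fun _ T h0 h1 => br (r := rb0.N) (B := rb0.B) (E := rb0.E) (h := rb0.h) rfl (K15.bd h0 h1),
  List.forall_mem_cons.2 ⟨fun _ T h0 h1 => br (r := rb1.N) (B := rb1.B) (E := rb1.E) (h := rb1.h) rfl (K16.bd h0 h1),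
  List.forall_mem_cons.2 ⟨fun _ T h0 h1 => br (r := rb2.N) (B := rb2.B) (E := rb2.E) (h := rb2.h) rfl (K17.bd h0 h1),
  List.forall_mem_cons.2 ⟨fun _ T h0 h1 => br (r := rb3.N) (B := rb3.B) (E := rb3.E) (h := rb3.h) rfl (K18.bd h0 h1),
  List.forall_mem_cons.2 ⟨fun _ T h0 h1 => br (r := rb4.N) (B := rb4.B) (E := rb4.E) (h := rb4.h) rfl (K19.bd h0 h1),
  List.forall_mem_cons.2 ⟨fun _ T h0 h1 => br (r := rb5.N) (B := rb5.B) (E := rb5.E) (h := rb5.h) rfl (K20.bd h0 h1),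
  List.forall_mem_cons.2 ⟨fun _ T h0 h1 => br (r := rb6.N) (B := rb6.B) (E := rb6.E) (h := rb6.h) rfl (K21.bd h0 h1),
  List.forall_mem_cons.2 ⟨fun _ T h0 h1 => br (r := rb7.N) (B := rb7.B) (E := rb7.E) (h := rb7.h) rfl (K22.bd h0 h1),
  List.forall_mem_cons.2 ⟨fun _ T h0 h1 => br (r := rb8.N) (B := rb8.B) (E := rb8.E) (h := rb8.h) rfl (K23.bd h0 h1),
  List.forall_mem_cons.2 ⟨fun _ T h0 h1 => br (r := rb9.N) (B := rb9.B) (E := rb9.E) (h := rb9.h) rfl (K24.bd h0 h1),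
  List.forall_mem_cons.2 ⟨fun _ T h0 h1 => br (r := rb10.N) (B := rb10.B) (E := rb10.E) (h := rb10.h) rfl (K25.bd h0 h1),
  List.forall_mem_cons.2 ⟨fun _ T h0 h1 => br (r := rb11.N) (B := rb11.B) (E := rb11.E) (h := rb11.h) rfl (K26.bd h0 h1),
  List.forall_mem_cons.2 ⟨fun _ T h0 h1 => br (r := rb12.N) (B := rb12.B) (E := rb12.E) (h := rb12.h) rfl (K27.bd h0 h1),
  List.forall_mem_cons.2 ⟨fun _ T h0 h1 => br (r := rb13.N) (B := rb13.B) (E := rb13.E) (h := rb13.h) rfl (K28.bd h0 h1),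
  List.forall_mem_cons.2 ⟨fun _ T h0 h1 => br (r := rb14.N) (B := rb14.B) (E := rb14.E) (h := rb14.h) rfl (K29.bd h0 h1),
  List.forall_mem_cons.2 ⟨fun _ T h0 h1 => br (r := rb15.N) (B := rb15.B) (E := rb15.E) (h := rb15.h) rfl (K30.bd h0 h1),
  List.forall_mem_cons.2 ⟨fun h => absurd h (by decide +kernel),
  List.forall_mem_cons.2 ⟨fun h => absurd h (by decide +kernel),
  List.forall_mem_cons.2 ⟨fun h => absurd h (by decide +kernel),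
  List.forall_mem_cons.2 ⟨fun h => absurd h (by decide +kernel),
  List.forall_mem_cons.2 ⟨fun h => absurd h (by decide +kernel),
  List.forall_mem_cons.2 ⟨fun h => absurd h (by decide +kernel),
  List.forall_mem_cons.2 ⟨fun h => absurd h (by decide +kernel),
  List.forall_mem_cons.2 ⟨fun h => absurd h (by decide +kernel),
  List.forall_mem_cons.2 ⟨fun _ T h0 h1 => br (r := rb24.N) (B := rb24.B) (E := rb24.E) (h := rb24.h) rfl (K31.bd h0 h1),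
  List.forall_mem_cons.2 ⟨fun _ T h0 h1 => br (r := rb25.N) (B := rb25.B) (E := rb25.E) (h := rb25.h) rfl (K32.bd h0 h1),
  List.forall_mem_cons.2 ⟨fun _ T h0 h1 => br (r := rb26.N) (B := rb26.B) (E := rb26.E) (h := rb26.h) rfl (K33.bd h0 h1),
  List.forall_mem_cons.2 ⟨fun _ T h0 h1 => br (r := rb27.N) (B := rb27.B) (E := rb27.E) (h := rb27.h) rfl (K34.bd h0 h1),
  List.forall_mem_cons.2 ⟨fun _ T h0 h1 => br (r := rb28.N) (B := rb28.B) (E := rb28.E) (h := rb28.h) rfl (K35.bd h0 h1),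
  List.forall_mem_cons.2 ⟨fun _ T h0 h1 => br (r := rb29.N) (B := rb29.B) (E := rb29.E) (h := rb29.h) rfl (K36.bd h0 h1),
  List.forall_mem_cons.2 ⟨fun _ T h0 h1 => br (r := rb30.N) (B := rb30.B) (E := rb30.E) (h := rb30.h) rfl (K37.bd h0 h1),
  List.forall_mem_cons.2 ⟨fun _ T h0 h1 => br (r := rb31.N) (B := rb31.B) (E := rb31.E) (h := rb31.h) rfl (K38.bd h0 h1),
  List.forall_mem_cons.2 ⟨fun _ T h0 h1 => br (r := rb32.N) (B := rb32.B) (E := rb32.E) (h := rb32.h) rfl (K39.bd h0 h1),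
  List.forall_mem_cons.2 ⟨fun _ T h0 h1 => br (r := rb33.N) (B := rb33.B) (E := rb33.E) (h := rb33.h) rfl (K40.bd h0 h1),
  List.forall_mem_cons.2 ⟨fun _ T h0 h1 => br (r := rb34.N) (B := rb34.B) (E := rb34.E) (h := rb34.h) rfl (K41.bd h0 h1),
  List.forall_mem_cons.2 ⟨fun _ T h0 h1 => br (r := rb35.N) (B := rb35.B) (E := rb35.E) (h := rb35.h) rfl (K42.bd h0 h1),
  List.forall_mem_cons.2 ⟨fun _ T h0 h1 => br (r := rb36.N) (B := rb36.B) (E := rb36.E) (h := rb36.h) rfl (K43.bd h0 h1),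
  fun x hx => absurd hx List.not_mem_nil⟩⟩⟩⟩⟩⟩⟩⟩⟩⟩⟩⟩⟩⟩⟩⟩⟩⟩⟩⟩⟩⟩⟩⟩⟩⟩⟩⟩⟩⟩⟩⟩⟩⟩⟩⟩⟩

end

end Vale.Agent.P224.S9.Z9
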