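import Vale.Agent.P224.S9.Z9.Dat

/-!
Certificate data in dimension nine: the free columns.
-/

namespace Vale.Agent.P224.S9.Z9

open Vale.Agent.P224.POS Vale.Agent.P224.S9
open Vale.Agent.P224.SP (ev Q4)

noncomputable section

/-- the common denominator of the polynomial columns -/
def c0 : ℕ := 7705271992320000

/-- factor of the approximations -/
def kB : ℕ := 140000

/-- factor of the polynomial columns -/
def kF : ℕ := 1

/-- free value column 0 -/
def vf0 : VFz := ⟨⟨5, 0, 0, 0, 0⟩, [283129329329280000, -1329033652178400000, 2529528874286400000, -2596400202916800000, 1554952331192400000, -526670297445600000, 79800519779019620],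
    .c 0,
    .c 0,
    .c 0,
    .c 0⟩

/-- free value column 1 -/
def vf1 : VFz := ⟨⟨5, 0, 0, 0, 1⟩, [-566258658658560000, 2658067304356800000, -5059057748572800000, 5192800405833600000, -3109904662384800000, 1053340594891200000, -159601039558039240],
    .c 0,
    .c 0,
    .c 0,
    .c 0⟩

/-- free value column 2 -/
def vf2 : VFz := ⟨⟨5, 0, 0, 0, 2⟩, [283129329329280000, -1329033652178400000, 2529528874286400000, -2596400202916800000, 1554952331192400000, -526670297445600000, 79800519779019620],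
    .c 0,
    .mul (.c (-1)) (.mul (.mul (.add (.mul (.sub (.c (-8)) (.mul (.c 2) (.T))) (.P)) (.mul (.mul (.mul (.c 10) (.a)) (.add (.c 9) (.T))) (.s))) (.pow (.P) 3)) (.c 2)),
    .c 0,
    .mul (.c (-1)) (.mul (.mul (.mul (.mul (.c 2) (.a)) (.add (.c 9) (.T))) (.pow (.P) 4)) (.c 2))⟩

/-- free value column 3 -/
def vf3 : VFz := ⟨⟨5, 0, 1, 0, 0⟩, [541406014736720000, -2531095933820160000, 4800451117425600000, -4904610075971200000, 2903574126684000000, -956459999540640000, 137366293422759240],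
    .c 0,
    .c 0,
    .c 0,
    .c 0⟩

/-- free value column 4 -/
def vf4 : VFz := ⟨⟨5, 0, 1, 0, 1⟩, [-516553370814880000, 2404124563283520000, -4541844486278400000, 4616419746108800000, -2697243590983200000, 859579404190080000, -115131547287479240],
    .c 0,
    .c 0,
    .c 0,
    .c 0⟩

/-- free value column 5 -/
def vf5 : VFz := ⟨⟨5, 0, 1, 0, 2⟩, [-24852643921840000, 126971370536640000, -258606631147200000, 288190329862400000, -206330535700800000, 96880595350560000, -22234746135280000],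
    .c 0,
    .mul (.c (-1)) (.mul (.mul (.add (.mul (.sub (.c (-8)) (.mul (.c 2) (.T))) (.P)) (.mul (.mul (.mul (.c 10) (.a)) (.add (.c 9) (.T))) (.s))) (.pow (.P) 3)) (.mul (.c 2) (.t))),
    .c 0,
    .mul (.c (-1)) (.mul (.mul (.mul (.mul (.c 2) (.a)) (.add (.c 9) (.T))) (.pow (.P) 4)) (.mul (.c 2) (.t)))⟩

/-- free value column 6 -/
def vf6 : VFz := ⟨⟨5, 0, 1, 1, 0⟩, [116712020742800000, -537545455552560000, 1006157805996000000, -1010009771596000000, 571145629895400000, -166454553372240000, 17665513754229810],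
    .mul (.c (-1)) (.mul (.mul (.add (.mul (.sub (.c (-8)) (.mul (.c 2) (.T))) (.P)) (.mul (.mul (.mul (.c 10) (.a)) (.add (.c 9) (.T))) (.s))) (.pow (.P) 3)) (.c (-2))),
    .c 0,
    .mul (.c (-1)) (.mul (.mul (.mul (.mul (.c 2) (.a)) (.add (.c 9) (.T))) (.pow (.P) 4)) (.c (-2))),
    .c 0⟩

/-- free value column 7 -/
def vf7 : VFz := ⟨⟨5, 0, 1, 1, 1⟩, [24852643921840000, -126971370536640000, 258606631147200000, -288190329862400000, 206330535700800000, -96880595350560000, 22234746135280000],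
    .mul (.c (-1)) (.mul (.mul (.add (.mul (.sub (.c (-8)) (.mul (.c 2) (.T))) (.P)) (.mul (.mul (.mul (.c 10) (.a)) (.add (.c 9) (.T))) (.s))) (.pow (.P) 3)) (.mul (.c (-2)) (.d))),
    .c 0,
    .mul (.c (-1)) (.mul (.mul (.mul (.mul (.c 2) (.a)) (.add (.c 9) (.T))) (.pow (.P) 4)) (.mul (.c (-2)) (.d))),
    .c 0⟩

/-- free value column 8 -/
def vf8 : VFz := ⟨⟨5, 0, 2, 0, 0⟩, [116712020742800000, -537545455552560000, 1006157805996000000, -1010009771596000000, 571145629895400000, -166454553372240000, 17665513754229810],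
    .mul (.c (-1)) (.mul (.mul (.add (.mul (.sub (.c (-8)) (.mul (.c 2) (.T))) (.P)) (.mul (.mul (.mul (.c 10) (.a)) (.add (.c 9) (.T))) (.s))) (.pow (.P) 3)) (.c 2)),
    .c 0,
    .mul (.c (-1)) (.mul (.mul (.mul (.mul (.c 2) (.a)) (.add (.c 9) (.T))) (.pow (.P) 4)) (.c 2)),
    .c 0⟩

/-- free value column 9 -/
def vf9 : VFz := ⟨⟨5, 0, 2, 0, 1⟩, [24852643921840000, -126971370536640000, 258606631147200000, -288190329862400000, 206330535700800000, -96880595350560000, 22234746135280000],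
    .mul (.c (-1)) (.mul (.mul (.add (.mul (.sub (.c (-8)) (.mul (.c 2) (.T))) (.P)) (.mul (.mul (.mul (.c 10) (.a)) (.add (.c 9) (.T))) (.s))) (.pow (.P) 3)) (.mul (.c 2) (.d))),
    .c 0,
    .mul (.c (-1)) (.mul (.mul (.mul (.mul (.c 2) (.a)) (.add (.c 9) (.T))) (.pow (.P) 4)) (.mul (.c 2) (.d))),
    .c 0⟩

/-- free value column 10 -/
def vf10 : VFz := ⟨⟨5, 0, 2, 1, 0⟩, [-18639482941380000, 95228527902480000, -193954973360400000, 216142747396800000, -154747901775600000, 72660446512920000, -16676059601460000],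
    .mul (.c (-1)) (.mul (.mul (.add (.mul (.sub (.c (-8)) (.mul (.c 2) (.T))) (.P)) (.mul (.mul (.mul (.c 10) (.a)) (.add (.c 9) (.T))) (.s))) (.pow (.P) 3)) (.mul (.c (-2)) (.t))),
    .c 0,
    .mul (.c (-1)) (.mul (.mul (.mul (.mul (.c 2) (.a)) (.add (.c 9) (.T))) (.pow (.P) 4)) (.mul (.c (-2)) (.t))),
    .c 0⟩

/-- free value column 11 -/
def vf11 : VFz := ⟨⟨5, 0, 3, 0, 0⟩, [-6213160980460000, 31742842634160000, -64651657786800000, 72047582465600000, -51582633925200000, 24220148837640000, -5558686533820000],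
    .mul (.c (-1)) (.mul (.mul (.add (.mul (.sub (.c (-8)) (.mul (.c 2) (.T))) (.P)) (.mul (.mul (.mul (.c 10) (.a)) (.add (.c 9) (.T))) (.s))) (.pow (.P) 3)) (.mul (.c 6) (.t))),
    .c 0,
    .mul (.c (-1)) (.mul (.mul (.mul (.mul (.c 2) (.a)) (.add (.c 9) (.T))) (.pow (.P) 4)) (.mul (.c 6) (.t))),
    .c 0⟩

/-- free value column 12 -/
def vf12 : VFz := ⟨⟨5, 1, 0, 0, 0⟩, [-565512709852160000, 2530888283955360000, -4603179291841200000, 4557212414843200000, -2735900360407200000, 983318820889440000, -164449664374599240],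
    .c 0,
    .c 0,
    .c 0,
    .c 0⟩

/-- free value column 13 -/
def vf13 : VFz := ⟨⟨5, 1, 0, 0, 1⟩, [564766761045760000, -2403709263553920000, 4147300835109600000, -3921624423852800000, 2361896058429600000, -913297046887680000, 169298289191159240],
    .c 0,
    .c 0,
    .c 0,
    .c 0⟩

/-- free value column 14 -/
def vf14 : VFz := ⟨⟨5, 1, 0, 0, 2⟩, [745948806400000, -127179020401440000, 455878456731600000, -635587990990400000, 374004301977600000, -70021774001760000, -4848624816560000],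
    .c 0,
    .mul (.c (-1)) (.mul (.mul (.mul (.add (.mul (.sub (.c (-8)) (.mul (.c 2) (.T))) (.P)) (.mul (.mul (.mul (.c 10) (.a)) (.add (.c 9) (.T))) (.s))) (.w)) (.pow (.P) 3)) (.c 2)),
    .c 0,
    .mul (.c (-1)) (.mul (.mul (.mul (.mul (.mul (.c 2) (.a)) (.add (.c 9) (.T))) (.w)) (.pow (.P) 4)) (.c 2))⟩

/-- free value column 15 -/
def vf15 : VFz := ⟨⟨5, 1, 1, 0, 0⟩, [-515061473202080000, 2161220179853280000, -3667944115038000000, 3361869338128000000, -1892075657379600000, 648256828860480000, -101063657669319240],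
    .c 0,
    .c 0,
    .c 0,
    .c 0⟩

/-- free value column 16 -/
def vf16 : VFz := ⟨⟨5, 1, 1, 0, 1⟩, [-51197185456480000, 485393467130880000, -1353257091312000000, 1814305493705600000, -1274988334653600000, 476362793356800000, -82302521140000000],
    .c 0,
    .c 0,
    .c 0,
    .c 0⟩

/-- free value column 17 -/
def vf17 : VFz := ⟨⟨5, 1, 1, 0, 2⟩, [0, 11453657372640000, -37856542222800000, 16625574000000000, 57159329648400000, -71279027326080000, 23765139251280000],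
    .c 0,
    .mul (.c (-1)) (.mul (.mul (.mul (.add (.mul (.sub (.c (-8)) (.mul (.c 2) (.T))) (.P)) (.mul (.mul (.mul (.c 10) (.a)) (.add (.c 9) (.T))) (.s))) (.w)) (.pow (.P) 3)) (.mul (.c 2) (.t))),
    .c 0,
    .mul (.c (-1)) (.mul (.mul (.mul (.mul (.mul (.c 2) (.a)) (.add (.c 9) (.T))) (.w)) (.pow (.P) 4)) (.mul (.c 2) (.t)))⟩

/-- free value column 18 -/
def vf18 : VFz := ⟨⟨5, 1, 1, 1, 0⟩, [25225618325040000, -179107223364720000, 448689317290200000, -589358751357600000, 450492016338000000, -203170509677520000, 43575572978280000],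
    .mul (.c (-1)) (.mul (.mul (.mul (.add (.mul (.sub (.c (-8)) (.mul (.c 2) (.T))) (.P)) (.mul (.mul (.mul (.c 10) (.a)) (.add (.c 9) (.T))) (.s))) (.w)) (.pow (.P) 3)) (.c (-2))),
    .c 0,
    .mul (.c (-1)) (.mul (.mul (.mul (.mul (.mul (.c 2) (.a)) (.add (.c 9) (.T))) (.w)) (.pow (.P) 4)) (.c (-2))),
    .c 0⟩

/-- free value column 19 -/
def vf19 : VFz := ⟨⟨5, 1, 1, 1, 1⟩, [0, -11453657372640000, 37856542222800000, -16625574000000000, -57159329648400000, 71279027326080000, -23765139251280000],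
    .mul (.c (-1)) (.mul (.mul (.mul (.add (.mul (.sub (.c (-8)) (.mul (.c 2) (.T))) (.P)) (.mul (.mul (.mul (.c 10) (.a)) (.add (.c 9) (.T))) (.s))) (.w)) (.pow (.P) 3)) (.mul (.c (-2)) (.d))),
    .c 0,
    .mul (.c (-1)) (.mul (.mul (.mul (.mul (.mul (.c 2) (.a)) (.add (.c 9) (.T))) (.w)) (.pow (.P) 4)) (.mul (.c (-2)) (.d))),
    .c 0⟩

/-- free value column 20 -/
def vf20 : VFz := ⟨⟨5, 1, 2, 0, 0⟩, [25225618325040000, -179107223364720000, 448689317290200000, -589358751357600000, 450492016338000000, -203170509677520000, 43575572978280000],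
    .mul (.c (-1)) (.mul (.mul (.mul (.add (.mul (.sub (.c (-8)) (.mul (.c 2) (.T))) (.P)) (.mul (.mul (.mul (.c 10) (.a)) (.add (.c 9) (.T))) (.s))) (.w)) (.pow (.P) 3)) (.c 2)),
    .c 0,
    .mul (.c (-1)) (.mul (.mul (.mul (.mul (.mul (.c 2) (.a)) (.add (.c 9) (.T))) (.w)) (.pow (.P) 4)) (.c 2)),
    .c 0⟩

/-- free value column 21 -/
def vf21 : VFz := ⟨⟨5, 1, 2, 0, 1⟩, [0, -11453657372640000, 37856542222800000, -16625574000000000, -57159329648400000, 71279027326080000, -23765139251280000],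
    .mul (.c (-1)) (.mul (.mul (.mul (.add (.mul (.sub (.c (-8)) (.mul (.c 2) (.T))) (.P)) (.mul (.mul (.mul (.c 10) (.a)) (.add (.c 9) (.T))) (.s))) (.w)) (.pow (.P) 3)) (.mul (.c 2) (.d))),
    .c 0,
    .mul (.c (-1)) (.mul (.mul (.mul (.mul (.mul (.c 2) (.a)) (.add (.c 9) (.T))) (.w)) (.pow (.P) 4)) (.mul (.c 2) (.d))),
    .c 0⟩

/-- free value column 22 -/
def vf22 : VFz := ⟨⟨5, 1, 2, 1, 0⟩, [0, 8590243029480000, -28392406667100000, 12469180500000000, 42869497236300000, -53459270494560000, 17823854438460000],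
    .mul (.c (-1)) (.mul (.mul (.mul (.add (.mul (.sub (.c (-8)) (.mul (.c 2) (.T))) (.P)) (.mul (.mul (.mul (.c 10) (.a)) (.add (.c 9) (.T))) (.s))) (.w)) (.pow (.P) 3)) (.mul (.c (-2)) (.t))),
    .c 0,
    .mul (.c (-1)) (.mul (.mul (.mul (.mul (.mul (.c 2) (.a)) (.add (.c 9) (.T))) (.w)) (.pow (.P) 4)) (.mul (.c (-2)) (.t))),
    .c 0⟩

/-- free value column 23 -/
def vf23 : VFz := ⟨⟨5, 1, 3, 0, 0⟩, [0, 2863414343160000, -9464135555700000, 4156393500000000, 14289832412100000, -17819756831520000, 5941284812820000],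
    .mul (.c (-1)) (.mul (.mul (.mul (.add (.mul (.sub (.c (-8)) (.mul (.c 2) (.T))) (.P)) (.mul (.mul (.mul (.c 10) (.a)) (.add (.c 9) (.T))) (.s))) (.w)) (.pow (.P) 3)) (.mul (.c 6) (.t))),
    .c 0,
    .mul (.c (-1)) (.mul (.mul (.mul (.mul (.mul (.c 2) (.a)) (.add (.c 9) (.T))) (.w)) (.pow (.P) 4)) (.mul (.c 6) (.t))),
    .c 0⟩

/-- free value column 24 -/
def vf24 : VFz := ⟨⟨5, 2, 0, 0, 0⟩, [281637431716480000, -1072576622554080000, 1655879815590000000, -1483548404777600000, 1038497869600800000, -534031476730080000, 123402998723659620],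
    .c 0,
    .c 0,
    .c 0,
    .c 0⟩

/-- free value column 25 -/
def vf25 : VFz := ⟨⟨5, 2, 0, 0, 1⟩, [1491897612800000, -258556018445760000, 835541203929600000, -954527614297600000, 284900319228000000, 154765906572480000, -77507708256160000],
    .c 0,
    .c 0,
    .c 0,
    .c 0⟩

/-- free value column 26 -/
def vf26 : VFz := ⟨⟨5, 2, 0, 0, 2⟩, [0, 2098988821440000, 38107854766800000, -158324183841600000, 231554142363600000, -147404727288000000, 33905229311520000],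
    .c 0,
    .mul (.c (-1)) (.mul (.mul (.mul (.add (.mul (.sub (.c (-8)) (.mul (.c 2) (.T))) (.P)) (.mul (.mul (.mul (.c 10) (.a)) (.add (.c 9) (.T))) (.s))) (.pow (.w) 2)) (.pow (.P) 3)) (.c 2)),
    .c 0,
    .mul (.c (-1)) (.mul (.mul (.mul (.mul (.mul (.c 2) (.a)) (.add (.c 9) (.T))) (.pow (.w) 2)) (.pow (.P) 4)) (.c 2))⟩

/-- free value column 27 -/
def vf27 : VFz := ⟨⟨5, 2, 1, 0, 0⟩, [-26344541534640000, 362900530218240000, -1026653442393600000, 1246603588809600000, -668789450078400000, 131642617004640000, -5141408748000000],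
    .c 0,
    .c 0,
    .c 0,
    .c 0⟩

/-- free value column 28 -/
def vf28 : VFz := ⟨⟨5, 2, 1, 0, 1⟩, [0, 18148425140160000, -135491410454400000, 275625930384000000, -222309753724800000, 58311652775040000, 5488004612160000],
    .c 0,
    .c 0,
    .c 0,
    .c 0⟩

/-- free value column 29 -/
def vf29 : VFz := ⟨⟨5, 2, 1, 0, 2⟩, [0, 280455981120000, -8218691762400000, 37136792649600000, -63239935852800000, 46969873574400000, -12884092366320000],
    .c 0,
    .mul (.c (-1)) (.mul (.mul (.mul (.add (.mul (.sub (.c (-8)) (.mul (.c 2) (.T))) (.P)) (.mul (.mul (.mul (.c 10) (.a)) (.add (.c 9) (.T))) (.s))) (.pow (.w) 2)) (.pow (.P) 3)) (.mul (.c 2) (.t))),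
    .c 0,
    .mul (.c (-1)) (.mul (.mul (.mul (.mul (.mul (.c 2) (.a)) (.add (.c 9) (.T))) (.pow (.w) 2)) (.pow (.P) 4)) (.mul (.c 2) (.t)))⟩

/-- free value column 30 -/
def vf30 : VFz := ⟨⟨5, 2, 1, 1, 0⟩, [0, -10123706980800000, 48691777843800000, -58650873271200000, -4622194319400000, 44546537256480000, -19696616961840000],
    .mul (.c (-1)) (.mul (.mul (.mul (.add (.mul (.sub (.c (-8)) (.mul (.c 2) (.T))) (.P)) (.mul (.mul (.mul (.c 10) (.a)) (.add (.c 9) (.T))) (.s))) (.pow (.w) 2)) (.pow (.P) 3)) (.c (-2))),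
    .c 0,
    .mul (.c (-1)) (.mul (.mul (.mul (.mul (.mul (.c 2) (.a)) (.add (.c 9) (.T))) (.pow (.w) 2)) (.pow (.P) 4)) (.c (-2))),
    .c 0⟩

/-- free value column 31 -/
def vf31 : VFz := ⟨⟨5, 2, 1, 1, 1⟩, [0, -280455981120000, 8218691762400000, -37136792649600000, 63239935852800000, -46969873574400000, 12884092366320000],
    .mul (.c (-1)) (.mul (.mul (.mul (.add (.mul (.sub (.c (-8)) (.mul (.c 2) (.T))) (.P)) (.mul (.mul (.mul (.c 10) (.a)) (.add (.c 9) (.T))) (.s))) (.pow (.w) 2)) (.pow (.P) 3)) (.mul (.c (-2)) (.d))),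
    .c 0,
    .mul (.c (-1)) (.mul (.mul (.mul (.mul (.mul (.c 2) (.a)) (.add (.c 9) (.T))) (.pow (.w) 2)) (.pow (.P) 4)) (.mul (.c (-2)) (.d))),
    .c 0⟩

/-- free value column 32 -/
def vf32 : VFz := ⟨⟨5, 2, 2, 0, 0⟩, [0, -10123706980800000, 48691777843800000, -58650873271200000, -4622194319400000, 44546537256480000, -19696616961840000],
    .mul (.c (-1)) (.mul (.mul (.mul (.add (.mul (.sub (.c (-8)) (.mul (.c 2) (.T))) (.P)) (.mul (.mul (.mul (.c 10) (.a)) (.add (.c 9) (.T))) (.s))) (.pow (.w) 2)) (.pow (.P) 3)) (.c 2)),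
    .c 0,
    .mul (.c (-1)) (.mul (.mul (.mul (.mul (.mul (.c 2) (.a)) (.add (.c 9) (.T))) (.pow (.w) 2)) (.pow (.P) 4)) (.c 2)),
    .c 0⟩

/-- free value column 33 -/
def vf33 : VFz := ⟨⟨5, 2, 2, 0, 1⟩, [0, -280455981120000, 8218691762400000, -37136792649600000, 63239935852800000, -46969873574400000, 12884092366320000],
    .mul (.c (-1)) (.mul (.mul (.mul (.add (.mul (.sub (.c (-8)) (.mul (.c 2) (.T))) (.P)) (.mul (.mul (.mul (.c 10) (.a)) (.add (.c 9) (.T))) (.s))) (.pow (.w) 2)) (.pow (.P) 3)) (.mul (.c 2) (.d))),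
    .c 0,
    .mul (.c (-1)) (.mul (.mul (.mul (.mul (.mul (.c 2) (.a)) (.add (.c 9) (.T))) (.pow (.w) 2)) (.pow (.P) 4)) (.mul (.c 2) (.d))),
    .c 0⟩

/-- free value column 34 -/
def vf34 : VFz := ⟨⟨5, 2, 2, 1, 0⟩, [0, 210341985840000, -6164018821800000, 27852594487200000, -47429951889600000, 35227405180800000, -9663069274740000],
    .mul (.c (-1)) (.mul (.mul (.mul (.add (.mul (.sub (.c (-8)) (.mul (.c 2) (.T))) (.P)) (.mul (.mul (.mul (.c 10) (.a)) (.add (.c 9) (.T))) (.s))) (.pow (.w) 2)) (.pow (.P) 3)) (.mul (.c (-2)) (.t))),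
    .c 0,
    .mul (.c (-1)) (.mul (.mul (.mul (.mul (.mul (.c 2) (.a)) (.add (.c 9) (.T))) (.pow (.w) 2)) (.pow (.P) 4)) (.mul (.c (-2)) (.t))),
    .c 0⟩

/-- free value column 35 -/
def vf35 : VFz := ⟨⟨5, 2, 3, 0, 0⟩, [0, 70113995280000, -2054672940600000, 9284198162400000, -15809983963200000, 11742468393600000, -3221023091580000],
    .mul (.c (-1)) (.mul (.mul (.mul (.add (.mul (.sub (.c (-8)) (.mul (.c 2) (.T))) (.P)) (.mul (.mul (.mul (.c 10) (.a)) (.add (.c 9) (.T))) (.s))) (.pow (.w) 2)) (.pow (.P) 3)) (.mul (.c 6) (.t))),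
    .c 0,
    .mul (.c (-1)) (.mul (.mul (.mul (.mul (.mul (.c 2) (.a)) (.add (.c 9) (.T))) (.pow (.w) 2)) (.pow (.P) 4)) (.mul (.c 6) (.t))),
    .c 0⟩

/-- free value column 36 -/
def vf36 : VFz := ⟨⟨5, 3, 0, 0, 0⟩, [745948806400000, -131376998044320000, 379662747198000000, -318939623307200000, -89103982749600000, 224787680574240000, -72659083439600000],
    .c 0,
    .c 0,
    .c 0,
    .c 0⟩

/-- free value column 37 -/
def vf37 : VFz := ⟨⟨5, 3, 0, 0, 1⟩, [0, 4197977642880000, 76215709533600000, -316648367683200000, 463108284727200000, -294809454576000000, 67810458623040000],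
    .c 0,
    .c 0,
    .c 0,
    .c 0⟩

/-- free value column 38 -/
def vf38 : VFz := ⟨⟨5, 3, 1, 0, 0⟩, [0, 6694767767520000, -97634868231600000, 259000356384000000, -279469083373200000, 129590680101120000, -18277134639120000],
    .c 0,
    .c 0,
    .c 0,
    .c 0⟩

/-- free value column 39 -/
def vf39 : VFz := ⟨⟨5, 3, 1, 0, 1⟩, [0, 560911962240000, -16437383524800000, 74273585299200000, -126479871705600000, 93939747148800000, -25768184732640000],
    .c 0,
    .c 0,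
    .c 0,
    .c 0⟩

/-- free value column 40 -/
def vf40 : VFz := ⟨⟨5, 3, 1, 1, 0⟩, [0, -280455981120000, 8218691762400000, -37136792649600000, 63239935852800000, -46969873574400000, 12884092366320000],
    .mul (.c (-1)) (.mul (.mul (.mul (.add (.mul (.sub (.c (-8)) (.mul (.c 2) (.T))) (.P)) (.mul (.mul (.mul (.c 10) (.a)) (.add (.c 9) (.T))) (.s))) (.pow (.w) 3)) (.pow (.P) 3)) (.c (-2))),
    .c 0,
    .mul (.c (-1)) (.mul (.mul (.mul (.mul (.mul (.c 2) (.a)) (.add (.c 9) (.T))) (.pow (.w) 3)) (.pow (.P) 4)) (.c (-2))),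
    .c 0⟩

/-- free value column 41 -/
def vf41 : VFz := ⟨⟨5, 3, 2, 0, 0⟩, [0, -280455981120000, 8218691762400000, -37136792649600000, 63239935852800000, -46969873574400000, 12884092366320000],
    .mul (.c (-1)) (.mul (.mul (.mul (.add (.mul (.sub (.c (-8)) (.mul (.c 2) (.T))) (.P)) (.mul (.mul (.mul (.c 10) (.a)) (.add (.c 9) (.T))) (.s))) (.pow (.w) 3)) (.pow (.P) 3)) (.c 2)),
    .c 0,
    .mul (.c (-1)) (.mul (.mul (.mul (.mul (.mul (.c 2) (.a)) (.add (.c 9) (.T))) (.pow (.w) 3)) (.pow (.P) 4)) (.c 2)),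
    .c 0⟩

/-- free value column 42 -/
def vf42 : VFz := ⟨⟨5, 4, 0, 0, 0⟩, [0, 2098988821440000, 38107854766800000, -158324183841600000, 231554142363600000, -147404727288000000, 33905229311520000],
    .c 0,
    .c 0,
    .c 0,
    .c 0⟩

/-- free value column 43 -/
def vf43 : VFz := ⟨⟨5, 4, 1, 0, 0⟩, [0, 280455981120000, -8218691762400000, 37136792649600000, -63239935852800000, 46969873574400000, -12884092366320000],
    .c 0,
    .c 0,
    .c 0,
    .c 0⟩

/-- free value column 44 -/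
def vf44 : VFz := ⟨⟨6, 0, 0, 0, 0⟩, [-530765089979040000, 2868361151352480000, -6514708149613440000, 8018246420452800000, -5711216941659600000, 2293347009829680000, -447246673667976960, 23982273285096960],
    .c 0,
    .c 0,
    .c 0,
    .c 0⟩

/-- free value column 45 -/
def vf45 : VFz := ⟨⟨6, 0, 0, 0, 1⟩, [1061530179958080000, -5736722302704960000, 13029416299226880000, -16036492840905600000, 11422433883319200000, -4586694019659360000, 894493347335953920, -47964546570193920],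
    .c 0,
    .c 0,
    .c 0,
    .c 0⟩

/-- free value column 46 -/
def vf46 : VFz := ⟨⟨6, 0, 0, 0, 2⟩, [-530765089979040000, 2868361151352480000, -6514708149613440000, 8018246420452800000, -5711216941659600000, 2293347009829680000, -447246673667976960, 23982273285096960],
    .c 0,
    .mul (.c (-1)) (.mul (.mul (.add (.mul (.sub (.c (-8)) (.mul (.c 2) (.T))) (.P)) (.mul (.mul (.mul (.c 12) (.a)) (.add (.c 9) (.T))) (.s))) (.pow (.P) 2)) (.c 2)),
    .c 0,
    .mul (.c (-1)) (.mul (.mul (.mul (.mul (.c 2) (.a)) (.add (.c 9) (.T))) (.pow (.P) 3)) (.c 2))⟩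

/-- free value column 47 -/
def vf47 : VFz := ⟨⟨6, 0, 1, 0, 0⟩, [-1015481554239600000, 5466772894408560000, -12434116194455760000, 15447344279346000000, -11253543935936400000, 4741781007675600000, -1033891253297953920, 81134756499553920],
    .c 0,
    .c 0,
    .c 0,
    .c 0⟩

/-- free value column 48 -/
def vf48 : VFz := ⟨⟨6, 0, 1, 0, 1⟩, [969432928521120000, -5196823486112160000, 11838816089684640000, -14858195717786400000, 11084653988553600000, -4896867995691840000, 1173289159259953920, -114304966428913920],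
    .c 0,
    .c 0,
    .c 0,
    .c 0⟩

/-- free value column 49 -/
def vf49 : VFz := ⟨⟨6, 0, 1, 0, 2⟩, [46048625718480000, -269949408296400000, 595300104771120000, -589148561559600000, 168889947382800000, 155086988016240000, -139397905962000000, 33170209929360000],
    .c 0,
    .mul (.c (-1)) (.mul (.mul (.add (.mul (.sub (.c (-8)) (.mul (.c 2) (.T))) (.P)) (.mul (.mul (.mul (.c 12) (.a)) (.add (.c 9) (.T))) (.s))) (.pow (.P) 2)) (.mul (.c 2) (.t))),
    .c 0,
    .mul (.c (-1)) (.mul (.mul (.mul (.mul (.c 2) (.a)) (.add (.c 9) (.T))) (.pow (.P) 3)) (.mul (.c 2) (.t)))⟩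

/-- free value column 50 -/
def vf50 : VFz := ⟨⟨6, 0, 1, 1, 0⟩, [-930567272743080000, 4941681423930720000, -5227543382203800000, -12126751157833200000, 33257426119860600000, -27218584639630440000, 7294597559346971520, 45161346571908480],
    .mul (.c (-1)) (.mul (.mul (.add (.mul (.sub (.c (-8)) (.mul (.c 2) (.T))) (.P)) (.mul (.mul (.mul (.c 12) (.a)) (.add (.c 9) (.T))) (.s))) (.pow (.P) 2)) (.c (-2))),
    .c 0,
    .mul (.c (-1)) (.mul (.mul (.mul (.mul (.c 2) (.a)) (.add (.c 9) (.T))) (.pow (.P) 3)) (.c (-2))),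
    .c 0⟩

/-- free value column 51 -/
def vf51 : VFz := ⟨⟨6, 0, 1, 1, 1⟩, [312602760367240000, -73185239420160000, 1746216746015280000, -21894665695960400000, 43878452873892000000, -32984806601226480000, 8579415889108120000, -33170209929360000],
    .mul (.c (-1)) (.mul (.mul (.add (.mul (.sub (.c (-8)) (.mul (.c 2) (.T))) (.P)) (.mul (.mul (.mul (.c 12) (.a)) (.add (.c 9) (.T))) (.s))) (.pow (.P) 2)) (.mul (.c (-2)) (.d))),
    .c 0,
    .mul (.c (-1)) (.mul (.mul (.mul (.mul (.c 2) (.a)) (.add (.c 9) (.T))) (.pow (.P) 3)) (.mul (.c (-2)) (.d))),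
    .c 0⟩

/-- free value column 52 -/
def vf52 : VFz := ⟨⟨6, 0, 1, 1, 2⟩, [4952464561800000, -853435982745360000, 3033873772284600000, -3993902010403200000, 2269860987328200000, -434602321715520000, -26723416731480000],
    .mul (.c (-1)) (.mul (.mul (.add (.mul (.sub (.c (-8)) (.mul (.c 2) (.T))) (.P)) (.mul (.mul (.mul (.c 12) (.a)) (.add (.c 9) (.T))) (.s))) (.pow (.P) 2)) (.mul (.c (-2)) (.pow (.d) 2))),
    .mul (.c (-1)) (.mul (.mul (.add (.mul (.sub (.c (-8)) (.mul (.c 2) (.T))) (.P)) (.mul (.mul (.mul (.c 12) (.a)) (.add (.c 9) (.T))) (.s))) (.pow (.P) 2)) (.mul (.c 2) (.pow (.t) 2))),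
    .mul (.c (-1)) (.mul (.mul (.mul (.mul (.c 2) (.a)) (.add (.c 9) (.T))) (.pow (.P) 3)) (.mul (.c (-2)) (.pow (.d) 2))),
    .mul (.c (-1)) (.mul (.mul (.mul (.mul (.c 2) (.a)) (.add (.c 9) (.T))) (.pow (.P) 3)) (.mul (.c 2) (.pow (.t) 2)))⟩

/-- free value column 53 -/
def vf53 : VFz := ⟨⟨6, 0, 2, 0, 0⟩, [501804363324600000, -4320091054661760000, 5971182986701800000, 10978896434360400000, -34091141192098200000, 28952900982061560000, -8074086878401908480, 45161346571908480],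
    .mul (.c (-1)) (.mul (.mul (.add (.mul (.sub (.c (-8)) (.mul (.c 2) (.T))) (.P)) (.mul (.mul (.mul (.c 12) (.a)) (.add (.c 9) (.T))) (.s))) (.pow (.P) 2)) (.c 2)),
    .c 0,
    .mul (.c (-1)) (.mul (.mul (.mul (.mul (.c 2) (.a)) (.add (.c 9) (.T))) (.pow (.P) 3)) (.c 2)),
    .c 0⟩

/-- free value column 54 -/
def vf54 : VFz := ⟨⟨6, 0, 2, 0, 1⟩, [-424509870051400000, 4026827986994400000, -15072312044695920000, 39048570860692400000, -53295676717970400000, 34413041912056080000, -8193726410258200000, -33170209929360000],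
    .mul (.c (-1)) (.mul (.mul (.add (.mul (.sub (.c (-8)) (.mul (.c 2) (.T))) (.P)) (.mul (.mul (.mul (.c 12) (.a)) (.add (.c 9) (.T))) (.s))) (.pow (.P) 2)) (.mul (.c 2) (.d))),
    .c 0,
    .mul (.c (-1)) (.mul (.mul (.mul (.mul (.c 2) (.a)) (.add (.c 9) (.T))) (.pow (.P) 3)) (.mul (.c 2) (.d))),
    .c 0⟩

/-- free value column 55 -/
def vf55 : VFz := ⟨⟨6, 0, 2, 0, 2⟩, [4952464561800000, -853435982745360000, 3033873772284600000, -3993902010403200000, 2269860987328200000, -434602321715520000, -26723416731480000],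
    .mul (.c (-1)) (.mul (.mul (.add (.mul (.sub (.c (-8)) (.mul (.c 2) (.T))) (.P)) (.mul (.mul (.mul (.c 12) (.a)) (.add (.c 9) (.T))) (.s))) (.pow (.P) 2)) (.mul (.c 2) (.pow (.d) 2))),
    .mul (.c (-1)) (.mul (.mul (.add (.mul (.sub (.c (-8)) (.mul (.c 2) (.T))) (.P)) (.mul (.mul (.mul (.c 12) (.a)) (.add (.c 9) (.T))) (.s))) (.pow (.P) 2)) (.mul (.c 2) (.pow (.t) 2))),
    .mul (.c (-1)) (.mul (.mul (.mul (.mul (.c 2) (.a)) (.add (.c 9) (.T))) (.pow (.P) 3)) (.mul (.c 2) (.pow (.d) 2))),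
    .mul (.c (-1)) (.mul (.mul (.mul (.mul (.c 2) (.a)) (.add (.c 9) (.T))) (.pow (.P) 3)) (.mul (.c 2) (.pow (.t) 2)))⟩

/-- free value column 56 -/
def vf56 : VFz := ⟨⟨6, 0, 2, 1, 0⟩, [-66696419874980000, -2654576313548460000, 10714112162047140000, -15500553485616500000, 10546152474316200000, -3620463571118940000, 556876316702860000, 24877657447020000],
    .mul (.c (-1)) (.mul (.mul (.add (.mul (.sub (.c (-8)) (.mul (.c 2) (.T))) (.P)) (.mul (.mul (.mul (.c 12) (.a)) (.add (.c 9) (.T))) (.s))) (.pow (.P) 2)) (.mul (.c (-2)) (.t))),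
    .c 0,
    .mul (.c (-1)) (.mul (.mul (.mul (.mul (.c 2) (.a)) (.add (.c 9) (.T))) (.pow (.P) 3)) (.mul (.c (-2)) (.t))),
    .c 0⟩

/-- free value column 57 -/
def vf57 : VFz := ⟨⟨6, 0, 2, 1, 1⟩, [-191233648739700000, 3678682756853160000, -12000710495214000000, 15902988691741200000, -9962736005577600000, 2914727779293120000, -343255849051500000],
    .mul (.c (-1)) (.mul (.mul (.add (.mul (.sub (.c (-8)) (.mul (.c 2) (.T))) (.P)) (.mul (.mul (.mul (.c 12) (.a)) (.add (.c 9) (.T))) (.s))) (.pow (.P) 2)) (.mul (.mul (.c (-2)) (.t)) (.d))),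
    .c 0,
    .mul (.c (-1)) (.mul (.mul (.mul (.mul (.c 2) (.a)) (.add (.c 9) (.T))) (.pow (.P) 3)) (.mul (.mul (.c (-2)) (.t)) (.d))),
    .c 0⟩

/-- free value column 58 -/
def vf58 : VFz := ⟨⟨6, 0, 2, 2, 0⟩, [3714348421350000, -640076987059020000, 2275405329213450000, -2995426507802400000, 1702395740496150000, -325951741286640000, -20042562548610000],
    .mul (.c (-1)) (.mul (.mul (.add (.mul (.sub (.c (-8)) (.mul (.c 2) (.T))) (.P)) (.mul (.mul (.mul (.c 12) (.a)) (.add (.c 9) (.T))) (.s))) (.pow (.P) 2)) (.add (.mul (.c 2) (.pow (.u) 2)) (.mul (.c (-4)) (.pow (.t) 2)))),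
    .c 0,
    .mul (.c (-1)) (.mul (.mul (.mul (.mul (.c 2) (.a)) (.add (.c 9) (.T))) (.pow (.P) 3)) (.add (.mul (.c 2) (.pow (.u) 2)) (.mul (.c (-4)) (.pow (.t) 2)))),
    .c 0⟩

/-- free value column 59 -/
def vf59 : VFz := ⟨⟨6, 0, 3, 0, 0⟩, [132554903840660000, -1029117025729380000, 2016683031862380000, -1064203117555900000, -1297818577620600000, 2037141272273100000, -803167889590780000, 8292552482340000],
    .mul (.c (-1)) (.mul (.mul (.add (.mul (.sub (.c (-8)) (.mul (.c 2) (.T))) (.P)) (.mul (.mul (.mul (.c 12) (.a)) (.add (.c 9) (.T))) (.s))) (.pow (.P) 2)) (.mul (.c 6) (.t))),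
    .c 0,
    .mul (.c (-1)) (.mul (.mul (.mul (.mul (.c 2) (.a)) (.add (.c 9) (.T))) (.pow (.P) 3)) (.mul (.c 6) (.t))),
    .c 0⟩

/-- free value column 60 -/
def vf60 : VFz := ⟨⟨6, 0, 3, 0, 1⟩, [171423790492500000, -264938825871720000, -134784593924400000, 72619349871600000, 883292056264800000, -1176318492431040000, 450149515977420000],
    .mul (.c (-1)) (.mul (.mul (.add (.mul (.sub (.c (-8)) (.mul (.c 2) (.T))) (.P)) (.mul (.mul (.mul (.c 12) (.a)) (.add (.c 9) (.T))) (.s))) (.pow (.P) 2)) (.mul (.mul (.c 6) (.t)) (.d))),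
    .c 0,
    .mul (.c (-1)) (.mul (.mul (.mul (.mul (.c 2) (.a)) (.add (.c 9) (.T))) (.pow (.P) 3)) (.mul (.mul (.c 6) (.t)) (.d))),
    .c 0⟩

/-- free value column 61 -/
def vf61 : VFz := ⟨⟨6, 0, 3, 1, 0⟩, [4952464561800000, -853435982745360000, 3033873772284600000, -3993902010403200000, 2269860987328200000, -434602321715520000, -26723416731480000],
    .mul (.c (-1)) (.mul (.mul (.add (.mul (.sub (.c (-8)) (.mul (.c 2) (.T))) (.P)) (.mul (.mul (.mul (.c 12) (.a)) (.add (.c 9) (.T))) (.s))) (.pow (.P) 2)) (.mul (.c (-2)) (.pow (.u) 2))),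
    .c 0,
    .mul (.c (-1)) (.mul (.mul (.mul (.mul (.c 2) (.a)) (.add (.c 9) (.T))) (.pow (.P) 3)) (.mul (.c (-2)) (.pow (.u) 2))),
    .c 0⟩

/-- free value column 62 -/
def vf62 : VFz := ⟨⟨6, 0, 4, 0, 0⟩, [1238116140450000, -213358995686340000, 758468443071150000, -998475502600800000, 567465246832050000, -108650580428880000, -6680854182870000],
    .mul (.c (-1)) (.mul (.mul (.add (.mul (.sub (.c (-8)) (.mul (.c 2) (.T))) (.P)) (.mul (.mul (.mul (.c 12) (.a)) (.add (.c 9) (.T))) (.s))) (.pow (.P) 2)) (.add (.mul (.c 2) (.pow (.u) 2)) (.mul (.c 12) (.pow (.t) 2)))),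
    .c 0,
    .mul (.c (-1)) (.mul (.mul (.mul (.mul (.c 2) (.a)) (.add (.c 9) (.T))) (.pow (.P) 3)) (.add (.mul (.c 2) (.pow (.u) 2)) (.mul (.c 12) (.pow (.t) 2)))),
    .c 0⟩

/-- free value column 63 -/
def vf63 : VFz := ⟨⟨6, 1, 0, 0, 0⟩, [1061530179958080000, -5736722302704960000, 13029416299226880000, -16036492840905600000, 11422433883319200000, -4586694019659360000, 894493347335953920, -47964546570193920],
    .c 0,
    .c 0,
    .c 0,
    .c 0⟩

/-- free value column 64 -/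
def vf64 : VFz := ⟨⟨6, 1, 0, 0, 1⟩, [-1061530179958080000, 5736722302704960000, -13029416299226880000, 16036492840905600000, -11422433883319200000, 4586694019659360000, -894493347335953920, 47964546570193920],
    .c 0,
    .c 0,
    .c 0,
    .c 0⟩

/-- free value column 65 -/
def vf65 : VFz := ⟨⟨6, 1, 1, 0, 0⟩, [969432928521120000, -5196823486112160000, 11838816089684640000, -14858195717786400000, 11084653988553600000, -4896867995691840000, 1173289159259953920, -114304966428913920],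
    .c 0,
    .c 0,
    .c 0,
    .c 0⟩

/-- free value column 66 -/
def vf66 : VFz := ⟨⟨6, 1, 1, 0, 1⟩, [92097251436960000, -539898816592800000, 1190600209542240000, -1178297123119200000, 337779894765600000, 310173976032480000, -278795811924000000, 66340419858720000],
    .c 0,
    .c 0,
    .c 0,
    .c 0⟩

/-- free value column 67 -/
def vf67 : VFz := ⟨⟨6, 1, 1, 1, 0⟩, [-26257550557280000, 2571144384476640000, -11670226206116520000, 16798904442535600000, -9401957436232200000, -1185786004452000000, 2787533488440400000, -33170209929360000],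
    .mul (.c (-1)) (.mul (.mul (.mul (.add (.mul (.sub (.c (-8)) (.mul (.c 2) (.T))) (.P)) (.mul (.mul (.mul (.c 12) (.a)) (.add (.c 9) (.T))) (.s))) (.w)) (.pow (.P) 2)) (.c (-2))),
    .c 0,
    .mul (.c (-1)) (.mul (.mul (.mul (.mul (.mul (.c 2) (.a)) (.add (.c 9) (.T))) (.w)) (.pow (.P) 3)) (.c (-2))),
    .c 0⟩

/-- free value column 68 -/
def vf68 : VFz := ⟨⟨6, 1, 1, 1, 1⟩, [9904929123600000, -1805124268962000000, 5300541023589000000, -7479881749368000000, 9363217283569800000, -12008810970878400000, 6060571085240280000],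
    .mul (.c (-1)) (.mul (.mul (.mul (.add (.mul (.sub (.c (-8)) (.mul (.c 2) (.T))) (.P)) (.mul (.mul (.mul (.c 12) (.a)) (.add (.c 9) (.T))) (.s))) (.w)) (.pow (.P) 2)) (.mul (.c (-2)) (.d))),
    .c 0,
    .mul (.c (-1)) (.mul (.mul (.mul (.mul (.mul (.c 2) (.a)) (.add (.c 9) (.T))) (.w)) (.pow (.P) 3)) (.mul (.c (-2)) (.d))),
    .c 0⟩

/-- free value column 69 -/
def vf69 : VFz := ⟨⟨6, 1, 1, 1, 2⟩, [0, 3964929348240000, 442077475555800000, -1488432160404000000, 1733010217129800000, -810069831849600000, 119529217064880000],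
    .mul (.c (-1)) (.mul (.mul (.mul (.add (.mul (.sub (.c (-8)) (.mul (.c 2) (.T))) (.P)) (.mul (.mul (.mul (.c 12) (.a)) (.add (.c 9) (.T))) (.s))) (.w)) (.pow (.P) 2)) (.mul (.c (-2)) (.pow (.d) 2))),
    .mul (.c (-1)) (.mul (.mul (.mul (.add (.mul (.sub (.c (-8)) (.mul (.c 2) (.T))) (.P)) (.mul (.mul (.mul (.c 12) (.a)) (.add (.c 9) (.T))) (.s))) (.w)) (.pow (.P) 2)) (.mul (.c 2) (.pow (.t) 2))),
    .mul (.c (-1)) (.mul (.mul (.mul (.mul (.mul (.c 2) (.a)) (.add (.c 9) (.T))) (.w)) (.pow (.P) 3)) (.mul (.c (-2)) (.pow (.d) 2))),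
    .mul (.c (-1)) (.mul (.mul (.mul (.mul (.mul (.c 2) (.a)) (.add (.c 9) (.T))) (.w)) (.pow (.P) 3)) (.mul (.c 2) (.pow (.t) 2)))⟩

/-- free value column 70 -/
def vf70 : VFz := ⟨⟨6, 1, 2, 0, 0⟩, [-85649559126880000, 1390428221794080000, -771714141452520000, -2621863598611600000, 3450754026413400000, 993881651582400000, -2162785575460720000, -33170209929360000],
    .mul (.c (-1)) (.mul (.mul (.mul (.add (.mul (.sub (.c (-8)) (.mul (.c 2) (.T))) (.P)) (.mul (.mul (.mul (.c 12) (.a)) (.add (.c 9) (.T))) (.s))) (.w)) (.pow (.P) 2)) (.c 2)),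
    .c 0,
    .mul (.c (-1)) (.mul (.mul (.mul (.mul (.mul (.c 2) (.a)) (.add (.c 9) (.T))) (.w)) (.pow (.P) 3)) (.c 2)),
    .c 0⟩

/-- free value column 71 -/
def vf71 : VFz := ⟨⟨6, 1, 2, 0, 1⟩, [9904929123600000, -1624479379412400000, 5066644163326200000, -2541997650628800000, -7215814202776200000, 13510681011414720000, -6645581620425720000],
    .mul (.c (-1)) (.mul (.mul (.mul (.add (.mul (.sub (.c (-8)) (.mul (.c 2) (.T))) (.P)) (.mul (.mul (.mul (.c 12) (.a)) (.add (.c 9) (.T))) (.s))) (.w)) (.pow (.P) 2)) (.mul (.c 2) (.d))),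
    .c 0,
    .mul (.c (-1)) (.mul (.mul (.mul (.mul (.mul (.c 2) (.a)) (.add (.c 9) (.T))) (.w)) (.pow (.P) 3)) (.mul (.c 2) (.d))),
    .c 0⟩

/-- free value column 72 -/
def vf72 : VFz := ⟨⟨6, 1, 2, 0, 2⟩, [0, 3964929348240000, 442077475555800000, -1488432160404000000, 1733010217129800000, -810069831849600000, 119529217064880000],
    .mul (.c (-1)) (.mul (.mul (.mul (.add (.mul (.sub (.c (-8)) (.mul (.c 2) (.T))) (.P)) (.mul (.mul (.mul (.c 12) (.a)) (.add (.c 9) (.T))) (.s))) (.w)) (.pow (.P) 2)) (.mul (.c 2) (.pow (.d) 2))),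
    .mul (.c (-1)) (.mul (.mul (.mul (.add (.mul (.sub (.c (-8)) (.mul (.c 2) (.T))) (.P)) (.mul (.mul (.mul (.c 12) (.a)) (.add (.c 9) (.T))) (.s))) (.w)) (.pow (.P) 2)) (.mul (.c 2) (.pow (.t) 2))),
    .mul (.c (-1)) (.mul (.mul (.mul (.mul (.mul (.c 2) (.a)) (.add (.c 9) (.T))) (.w)) (.pow (.P) 3)) (.mul (.c 2) (.pow (.d) 2))),
    .mul (.c (-1)) (.mul (.mul (.mul (.mul (.mul (.c 2) (.a)) (.add (.c 9) (.T))) (.w)) (.pow (.P) 3)) (.mul (.c 2) (.pow (.t) 2)))⟩

/-- free value column 73 -/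
def vf73 : VFz := ⟨⟨6, 1, 2, 1, 0⟩, [-14857393685400000, 2460881216054520000, -6442907612935500000, 3367284163084800000, 3103857178732800000, -2961555385718160000, 488625475649220000],
    .mul (.c (-1)) (.mul (.mul (.mul (.add (.mul (.sub (.c (-8)) (.mul (.c 2) (.T))) (.P)) (.mul (.mul (.mul (.c 12) (.a)) (.add (.c 9) (.T))) (.s))) (.w)) (.pow (.P) 2)) (.mul (.c (-2)) (.t))),
    .c 0,
    .mul (.c (-1)) (.mul (.mul (.mul (.mul (.mul (.c 2) (.a)) (.add (.c 9) (.T))) (.w)) (.pow (.P) 3)) (.mul (.c (-2)) (.t))),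
    .c 0⟩

/-- free value column 74 -/
def vf74 : VFz := ⟨⟨6, 1, 2, 1, 1⟩, [0, 100407903750000000, -2033036583933600000, 6231617376919200000, -7221651556625100000, 3299523531582600000, -373480589622420000],
    .mul (.c (-1)) (.mul (.mul (.mul (.add (.mul (.sub (.c (-8)) (.mul (.c 2) (.T))) (.P)) (.mul (.mul (.mul (.c 12) (.a)) (.add (.c 9) (.T))) (.s))) (.w)) (.pow (.P) 2)) (.mul (.mul (.c (-2)) (.t)) (.d))),
    .c 0,
    .mul (.c (-1)) (.mul (.mul (.mul (.mul (.mul (.c 2) (.a)) (.add (.c 9) (.T))) (.w)) (.pow (.P) 3)) (.mul (.mul (.c (-2)) (.t)) (.d))),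
    .c 0⟩

/-- free value column 75 -/
def vf75 : VFz := ⟨⟨6, 1, 2, 2, 0⟩, [0, 2973697011180000, 331558106666850000, -1116324120303000000, 1299757662847350000, -607552373887200000, 89646912798660000],
    .mul (.c (-1)) (.mul (.mul (.mul (.add (.mul (.sub (.c (-8)) (.mul (.c 2) (.T))) (.P)) (.mul (.mul (.mul (.c 12) (.a)) (.add (.c 9) (.T))) (.s))) (.w)) (.pow (.P) 2)) (.add (.mul (.c 2) (.pow (.u) 2)) (.mul (.c (-4)) (.pow (.t) 2)))),
    .c 0,
    .mul (.c (-1)) (.mul (.mul (.mul (.mul (.mul (.c 2) (.a)) (.add (.c 9) (.T))) (.w)) (.pow (.P) 3)) (.add (.mul (.c 2) (.pow (.u) 2)) (.mul (.c (-4)) (.pow (.t) 2)))),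
    .c 0⟩

/-- free value column 76 -/
def vf76 : VFz := ⟨⟨6, 1, 3, 0, 0⟩, [-4952464561800000, 968722432319880000, -3924277573979700000, 6654595236912000000, -5251260259526400000, 1459685345181840000, 96385059536220000],
    .mul (.c (-1)) (.mul (.mul (.mul (.add (.mul (.sub (.c (-8)) (.mul (.c 2) (.T))) (.P)) (.mul (.mul (.mul (.c 12) (.a)) (.add (.c 9) (.T))) (.s))) (.w)) (.pow (.P) 2)) (.mul (.c 6) (.t))),
    .c 0,
    .mul (.c (-1)) (.mul (.mul (.mul (.mul (.mul (.c 2) (.a)) (.add (.c 9) (.T))) (.w)) (.pow (.P) 3)) (.mul (.c 6) (.t))),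
    .c 0⟩

/-- free value column 77 -/
def vf77 : VFz := ⟨⟨6, 1, 3, 0, 1⟩, [0, -116267621142960000, 264726681710400000, -277888735303200000, 289610688105900000, -59244204184200000, -104636278637100000],
    .mul (.c (-1)) (.mul (.mul (.mul (.add (.mul (.sub (.c (-8)) (.mul (.c 2) (.T))) (.P)) (.mul (.mul (.mul (.c 12) (.a)) (.add (.c 9) (.T))) (.s))) (.w)) (.pow (.P) 2)) (.mul (.mul (.c 6) (.t)) (.d))),
    .c 0,
    .mul (.c (-1)) (.mul (.mul (.mul (.mul (.mul (.c 2) (.a)) (.add (.c 9) (.T))) (.w)) (.pow (.P) 3)) (.mul (.mul (.c 6) (.t)) (.d))),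
    .c 0⟩

/-- free value column 78 -/
def vf78 : VFz := ⟨⟨6, 1, 3, 1, 0⟩, [0, 3964929348240000, 442077475555800000, -1488432160404000000, 1733010217129800000, -810069831849600000, 119529217064880000],
    .mul (.c (-1)) (.mul (.mul (.mul (.add (.mul (.sub (.c (-8)) (.mul (.c 2) (.T))) (.P)) (.mul (.mul (.mul (.c 12) (.a)) (.add (.c 9) (.T))) (.s))) (.w)) (.pow (.P) 2)) (.mul (.c (-2)) (.pow (.u) 2))),
    .c 0,
    .mul (.c (-1)) (.mul (.mul (.mul (.mul (.mul (.c 2) (.a)) (.add (.c 9) (.T))) (.w)) (.pow (.P) 3)) (.mul (.c (-2)) (.pow (.u) 2))),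
    .c 0⟩

/-- free value column 79 -/
def vf79 : VFz := ⟨⟨6, 1, 4, 0, 0⟩, [0, 991232337060000, 110519368888950000, -372108040101000000, 433252554282450000, -202517457962400000, 29882304266220000],
    .mul (.c (-1)) (.mul (.mul (.mul (.add (.mul (.sub (.c (-8)) (.mul (.c 2) (.T))) (.P)) (.mul (.mul (.mul (.c 12) (.a)) (.add (.c 9) (.T))) (.s))) (.w)) (.pow (.P) 2)) (.add (.mul (.c 2) (.pow (.u) 2)) (.mul (.c 12) (.pow (.t) 2)))),
    .c 0,
    .mul (.c (-1)) (.mul (.mul (.mul (.mul (.mul (.c 2) (.a)) (.add (.c 9) (.T))) (.w)) (.pow (.P) 3)) (.add (.mul (.c 2) (.pow (.u) 2)) (.mul (.c 12) (.pow (.t) 2)))),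
    .c 0⟩

/-- free value column 80 -/
def vf80 : VFz := ⟨⟨6, 2, 0, 0, 0⟩, [-530765089979040000, 2868361151352480000, -6514708149613440000, 8018246420452800000, -5711216941659600000, 2293347009829680000, -447246673667976960, 23982273285096960],
    .c 0,
    .c 0,
    .c 0,
    .c 0⟩

/-- free value column 81 -/
def vf81 : VFz := ⟨⟨6, 2, 1, 0, 0⟩, [46048625718480000, -269949408296400000, 595300104771120000, -589148561559600000, 168889947382800000, 155086988016240000, -139397905962000000, 33170209929360000],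
    .c 0,
    .c 0,
    .c 0,
    .c 0⟩

/-- free value column 82 -/
def vf82 : VFz := ⟨⟨6, 2, 1, 1, 0⟩, [4952464561800000, -738020641800960000, 1212895677445200000, 1509454050552000000, -5794536639553200000, 5254114850374320000, -1766420428701600000],
    .mul (.c (-1)) (.mul (.mul (.mul (.add (.mul (.sub (.c (-8)) (.mul (.c 2) (.T))) (.P)) (.mul (.mul (.mul (.c 12) (.a)) (.add (.c 9) (.T))) (.s))) (.pow (.w) 2)) (.pow (.P) 2)) (.c (-2))),
    .c 0,
    .mul (.c (-1)) (.mul (.mul (.mul (.mul (.mul (.c 2) (.a)) (.add (.c 9) (.T))) (.pow (.w) 2)) (.pow (.P) 3)) (.c (-2))),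
    .c 0⟩

/-- free value column 83 -/
def vf83 : VFz := ⟨⟨6, 2, 1, 1, 1⟩, [0, 54155847140640000, 456897751039800000, -693434871864000000, -1939066497408600000, 4318576316066880000, -2201944384059840000],
    .mul (.c (-1)) (.mul (.mul (.mul (.add (.mul (.sub (.c (-8)) (.mul (.c 2) (.T))) (.P)) (.mul (.mul (.mul (.c 12) (.a)) (.add (.c 9) (.T))) (.s))) (.pow (.w) 2)) (.pow (.P) 2)) (.mul (.c (-2)) (.d))),
    .c 0,
    .mul (.c (-1)) (.mul (.mul (.mul (.mul (.mul (.c 2) (.a)) (.add (.c 9) (.T))) (.pow (.w) 2)) (.pow (.P) 3)) (.mul (.c (-2)) (.d))),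
    .c 0⟩

/-- free value column 84 -/
def vf84 : VFz := ⟨⟨6, 2, 1, 1, 2⟩, [0, -6765201414720000, 21428197131600000, -134847513914400000, 372640480997400000, -384943370852880000, 132800156226360000],
    .mul (.c (-1)) (.mul (.mul (.mul (.add (.mul (.sub (.c (-8)) (.mul (.c 2) (.T))) (.P)) (.mul (.mul (.mul (.c 12) (.a)) (.add (.c 9) (.T))) (.s))) (.pow (.w) 2)) (.pow (.P) 2)) (.mul (.c (-2)) (.pow (.d) 2))),
    .mul (.c (-1)) (.mul (.mul (.mul (.add (.mul (.sub (.c (-8)) (.mul (.c 2) (.T))) (.P)) (.mul (.mul (.mul (.c 12) (.a)) (.add (.c 9) (.T))) (.s))) (.pow (.w) 2)) (.pow (.P) 2)) (.mul (.c 2) (.pow (.t) 2))),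
    .mul (.c (-1)) (.mul (.mul (.mul (.mul (.mul (.c 2) (.a)) (.add (.c 9) (.T))) (.pow (.w) 2)) (.pow (.P) 3)) (.mul (.c (-2)) (.pow (.d) 2))),
    .mul (.c (-1)) (.mul (.mul (.mul (.mul (.mul (.c 2) (.a)) (.add (.c 9) (.T))) (.pow (.w) 2)) (.pow (.P) 3)) (.mul (.c 2) (.pow (.t) 2)))⟩

/-- free value column 85 -/
def vf85 : VFz := ⟨⟨6, 2, 2, 0, 0⟩, [4952464561800000, -998241443912160000, 3129398359164000000, -3813224457571200000, 4147498707685200000, -3652926908112720000, 1500457039431840000],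
    .mul (.c (-1)) (.mul (.mul (.mul (.add (.mul (.sub (.c (-8)) (.mul (.c 2) (.T))) (.P)) (.mul (.mul (.mul (.c 12) (.a)) (.add (.c 9) (.T))) (.s))) (.pow (.w) 2)) (.pow (.P) 2)) (.c 2)),
    .c 0,
    .mul (.c (-1)) (.mul (.mul (.mul (.mul (.mul (.c 2) (.a)) (.add (.c 9) (.T))) (.pow (.w) 2)) (.pow (.P) 3)) (.c 2)),
    .c 0⟩

/-- free value column 86 -/
def vf86 : VFz := ⟨⟨6, 2, 2, 0, 1⟩, [0, -11235324088800000, 1225699362657000000, -4720903714094400000, 7380545441938200000, -6019082160053760000, 2148860627413920000],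
    .mul (.c (-1)) (.mul (.mul (.mul (.add (.mul (.sub (.c (-8)) (.mul (.c 2) (.T))) (.P)) (.mul (.mul (.mul (.c 12) (.a)) (.add (.c 9) (.T))) (.s))) (.pow (.w) 2)) (.pow (.P) 2)) (.mul (.c 2) (.d))),
    .c 0,
    .mul (.c (-1)) (.mul (.mul (.mul (.mul (.mul (.c 2) (.a)) (.add (.c 9) (.T))) (.pow (.w) 2)) (.pow (.P) 3)) (.mul (.c 2) (.d))),
    .c 0⟩

/-- free value column 87 -/
def vf87 : VFz := ⟨⟨6, 2, 2, 0, 2⟩, [0, -6765201414720000, 21428197131600000, -134847513914400000, 372640480997400000, -384943370852880000, 132800156226360000],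
    .mul (.c (-1)) (.mul (.mul (.mul (.add (.mul (.sub (.c (-8)) (.mul (.c 2) (.T))) (.P)) (.mul (.mul (.mul (.c 12) (.a)) (.add (.c 9) (.T))) (.s))) (.pow (.w) 2)) (.pow (.P) 2)) (.mul (.c 2) (.pow (.d) 2))),
    .mul (.c (-1)) (.mul (.mul (.mul (.add (.mul (.sub (.c (-8)) (.mul (.c 2) (.T))) (.P)) (.mul (.mul (.mul (.c 12) (.a)) (.add (.c 9) (.T))) (.s))) (.pow (.w) 2)) (.pow (.P) 2)) (.mul (.c 2) (.pow (.t) 2))),
    .mul (.c (-1)) (.mul (.mul (.mul (.mul (.mul (.c 2) (.a)) (.add (.c 9) (.T))) (.pow (.w) 2)) (.pow (.P) 3)) (.mul (.c 2) (.pow (.d) 2))),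
    .mul (.c (-1)) (.mul (.mul (.mul (.mul (.mul (.c 2) (.a)) (.add (.c 9) (.T))) (.pow (.w) 2)) (.pow (.P) 3)) (.mul (.c 2) (.pow (.t) 2)))⟩

/-- free value column 88 -/
def vf88 : VFz := ⟨⟨6, 2, 2, 1, 0⟩, [0, -24175572316560000, -1400986734468300000, 4314491410698000000, -3750155705425500000, 112248835957440000, 750865822975800000],
    .mul (.c (-1)) (.mul (.mul (.mul (.add (.mul (.sub (.c (-8)) (.mul (.c 2) (.T))) (.P)) (.mul (.mul (.mul (.c 12) (.a)) (.add (.c 9) (.T))) (.s))) (.pow (.w) 2)) (.pow (.P) 2)) (.mul (.c (-2)) (.t))),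
    .c 0,
    .mul (.c (-1)) (.mul (.mul (.mul (.mul (.mul (.c 2) (.a)) (.add (.c 9) (.T))) (.pow (.w) 2)) (.pow (.P) 3)) (.mul (.c (-2)) (.t))),
    .c 0⟩

/-- free value column 89 -/
def vf89 : VFz := ⟨⟨6, 2, 2, 1, 1⟩, [0, 15903030228120000, -58584343419000000, 446080849477200000, -1247394166023600000, 1292636326481640000, -449323698916260000],
    .mul (.c (-1)) (.mul (.mul (.mul (.add (.mul (.sub (.c (-8)) (.mul (.c 2) (.T))) (.P)) (.mul (.mul (.mul (.c 12) (.a)) (.add (.c 9) (.T))) (.s))) (.pow (.w) 2)) (.pow (.P) 2)) (.mul (.mul (.c (-2)) (.t)) (.d))),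
    .c 0,
    .mul (.c (-1)) (.mul (.mul (.mul (.mul (.mul (.c 2) (.a)) (.add (.c 9) (.T))) (.pow (.w) 2)) (.pow (.P) 3)) (.mul (.mul (.c (-2)) (.t)) (.d))),
    .c 0⟩

/-- free value column 90 -/
def vf90 : VFz := ⟨⟨6, 2, 2, 2, 0⟩, [0, -5073901061040000, 16071147848700000, -101135635435800000, 279480360748050000, -288707528139660000, 99600117169770000],
    .mul (.c (-1)) (.mul (.mul (.mul (.add (.mul (.sub (.c (-8)) (.mul (.c 2) (.T))) (.P)) (.mul (.mul (.mul (.c 12) (.a)) (.add (.c 9) (.T))) (.s))) (.pow (.w) 2)) (.pow (.P) 2)) (.add (.mul (.c 2) (.pow (.u) 2)) (.mul (.c (-4)) (.pow (.t) 2)))),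
    .c 0,
    .mul (.c (-1)) (.mul (.mul (.mul (.mul (.mul (.c 2) (.a)) (.add (.c 9) (.T))) (.pow (.w) 2)) (.pow (.P) 3)) (.add (.mul (.c 2) (.pow (.u) 2)) (.mul (.c (-4)) (.pow (.t) 2)))),
    .c 0⟩

/-- free value column 91 -/
def vf91 : VFz := ⟨⟨6, 2, 3, 0, 0⟩, [0, -18744950735280000, -281610379228500000, 1099847175260400000, -1691323239104100000, 1588257008029440000, -697782066329880000],
    .mul (.c (-1)) (.mul (.mul (.mul (.add (.mul (.sub (.c (-8)) (.mul (.c 2) (.T))) (.P)) (.mul (.mul (.mul (.c 12) (.a)) (.add (.c 9) (.T))) (.s))) (.pow (.w) 2)) (.pow (.P) 2)) (.mul (.c 6) (.t))),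
    .c 0,
    .mul (.c (-1)) (.mul (.mul (.mul (.mul (.mul (.c 2) (.a)) (.add (.c 9) (.T))) (.pow (.w) 2)) (.pow (.P) 3)) (.mul (.c 6) (.t))),
    .c 0⟩

/-- free value column 92 -/
def vf92 : VFz := ⟨⟨6, 2, 3, 0, 1⟩, [0, 11157775430760000, -27128445107400000, 93309206180400000, -243167757966000000, 247137156929880000, -81876925989180000],
    .mul (.c (-1)) (.mul (.mul (.mul (.add (.mul (.sub (.c (-8)) (.mul (.c 2) (.T))) (.P)) (.mul (.mul (.mul (.c 12) (.a)) (.add (.c 9) (.T))) (.s))) (.pow (.w) 2)) (.pow (.P) 2)) (.mul (.mul (.c 6) (.t)) (.d))),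
    .c 0,
    .mul (.c (-1)) (.mul (.mul (.mul (.mul (.mul (.c 2) (.a)) (.add (.c 9) (.T))) (.pow (.w) 2)) (.pow (.P) 3)) (.mul (.mul (.c 6) (.t)) (.d))),
    .c 0⟩

/-- free value column 93 -/
def vf93 : VFz := ⟨⟨6, 2, 3, 1, 0⟩, [0, -6765201414720000, 21428197131600000, -134847513914400000, 372640480997400000, -384943370852880000, 132800156226360000],
    .mul (.c (-1)) (.mul (.mul (.mul (.add (.mul (.sub (.c (-8)) (.mul (.c 2) (.T))) (.P)) (.mul (.mul (.mul (.c 12) (.a)) (.add (.c 9) (.T))) (.s))) (.pow (.w) 2)) (.pow (.P) 2)) (.mul (.c (-2)) (.pow (.u) 2))),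
    .c 0,
    .mul (.c (-1)) (.mul (.mul (.mul (.mul (.mul (.c 2) (.a)) (.add (.c 9) (.T))) (.pow (.w) 2)) (.pow (.P) 3)) (.mul (.c (-2)) (.pow (.u) 2))),
    .c 0⟩

/-- free value column 94 -/
def vf94 : VFz := ⟨⟨6, 2, 4, 0, 0⟩, [0, -1691300353680000, 5357049282900000, -33711878478600000, 93160120249350000, -96235842713220000, 33200039056590000],
    .mul (.c (-1)) (.mul (.mul (.mul (.add (.mul (.sub (.c (-8)) (.mul (.c 2) (.T))) (.P)) (.mul (.mul (.mul (.c 12) (.a)) (.add (.c 9) (.T))) (.s))) (.pow (.w) 2)) (.pow (.P) 2)) (.add (.mul (.c 2) (.pow (.u) 2)) (.mul (.c 12) (.pow (.t) 2)))),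
    .c 0,
    .mul (.c (-1)) (.mul (.mul (.mul (.mul (.mul (.c 2) (.a)) (.add (.c 9) (.T))) (.pow (.w) 2)) (.pow (.P) 3)) (.add (.mul (.c 2) (.pow (.u) 2)) (.mul (.c 12) (.pow (.t) 2)))),
    .c 0⟩

/-- free value column 95 -/
def vf95 : VFz := ⟨⟨6, 3, 1, 1, 0⟩, [0, 17495332177680000, 399221081292600000, -1218737132575200000, 987729255135000000, -40183090143840000, -146071095387840000],
    .mul (.c (-1)) (.mul (.mul (.mul (.add (.mul (.sub (.c (-8)) (.mul (.c 2) (.T))) (.P)) (.mul (.mul (.mul (.c 12) (.a)) (.add (.c 9) (.T))) (.s))) (.pow (.w) 3)) (.pow (.P) 2)) (.c (-2))),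
    .c 0,
    .mul (.c (-1)) (.mul (.mul (.mul (.mul (.mul (.c 2) (.a)) (.add (.c 9) (.T))) (.pow (.w) 3)) (.pow (.P) 3)) (.c (-2))),
    .c 0⟩

/-- free value column 96 -/
def vf96 : VFz := ⟨⟨6, 3, 1, 1, 1⟩, [0, -13530402829440000, 42856394263200000, -269695027828800000, 745280961994800000, -769886741705760000, 265600312452720000],
    .mul (.c (-1)) (.mul (.mul (.mul (.add (.mul (.sub (.c (-8)) (.mul (.c 2) (.T))) (.P)) (.mul (.mul (.mul (.c 12) (.a)) (.add (.c 9) (.T))) (.s))) (.pow (.w) 3)) (.pow (.P) 2)) (.mul (.c (-2)) (.d))),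
    .c 0,
    .mul (.c (-1)) (.mul (.mul (.mul (.mul (.mul (.c 2) (.a)) (.add (.c 9) (.T))) (.pow (.w) 3)) (.pow (.P) 3)) (.mul (.c (-2)) (.d))),
    .c 0⟩

/-- free value column 97 -/
def vf97 : VFz := ⟨⟨6, 3, 2, 0, 0⟩, [0, 17495332177680000, 399221081292600000, -1218737132575200000, 987729255135000000, -40183090143840000, -146071095387840000],
    .mul (.c (-1)) (.mul (.mul (.mul (.add (.mul (.sub (.c (-8)) (.mul (.c 2) (.T))) (.P)) (.mul (.mul (.mul (.c 12) (.a)) (.add (.c 9) (.T))) (.s))) (.pow (.w) 3)) (.pow (.P) 2)) (.c 2)),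
    .c 0,
    .mul (.c (-1)) (.mul (.mul (.mul (.mul (.mul (.c 2) (.a)) (.add (.c 9) (.T))) (.pow (.w) 3)) (.pow (.P) 3)) (.c 2)),
    .c 0⟩

/-- free value column 98 -/
def vf98 : VFz := ⟨⟨6, 3, 2, 0, 1⟩, [0, -13530402829440000, 42856394263200000, -269695027828800000, 745280961994800000, -769886741705760000, 265600312452720000],
    .mul (.c (-1)) (.mul (.mul (.mul (.add (.mul (.sub (.c (-8)) (.mul (.c 2) (.T))) (.P)) (.mul (.mul (.mul (.c 12) (.a)) (.add (.c 9) (.T))) (.s))) (.pow (.w) 3)) (.pow (.P) 2)) (.mul (.c 2) (.d))),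
    .c 0,
    .mul (.c (-1)) (.mul (.mul (.mul (.mul (.mul (.c 2) (.a)) (.add (.c 9) (.T))) (.pow (.w) 3)) (.pow (.P) 3)) (.mul (.c 2) (.d))),
    .c 0⟩

/-- free value column 99 -/
def vf99 : VFz := ⟨⟨6, 3, 2, 1, 0⟩, [0, 20295604244160000, -64284591394800000, 404542541743200000, -1117921442992200000, 1154830112558640000, -398400468679080000],
    .mul (.c (-1)) (.mul (.mul (.mul (.add (.mul (.sub (.c (-8)) (.mul (.c 2) (.T))) (.P)) (.mul (.mul (.mul (.c 12) (.a)) (.add (.c 9) (.T))) (.s))) (.pow (.w) 3)) (.pow (.P) 2)) (.mul (.c (-2)) (.t))),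
    .c 0,
    .mul (.c (-1)) (.mul (.mul (.mul (.mul (.mul (.c 2) (.a)) (.add (.c 9) (.T))) (.pow (.w) 3)) (.pow (.P) 3)) (.mul (.c (-2)) (.t))),
    .c 0⟩

/-- free value column 100 -/
def vf100 : VFz := ⟨⟨6, 3, 3, 0, 0⟩, [0, 6765201414720000, -21428197131600000, 134847513914400000, -372640480997400000, 384943370852880000, -132800156226360000],
    .mul (.c (-1)) (.mul (.mul (.mul (.add (.mul (.sub (.c (-8)) (.mul (.c 2) (.T))) (.P)) (.mul (.mul (.mul (.c 12) (.a)) (.add (.c 9) (.T))) (.s))) (.pow (.w) 3)) (.pow (.P) 2)) (.mul (.c 6) (.t))),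
    .c 0,
    .mul (.c (-1)) (.mul (.mul (.mul (.mul (.mul (.c 2) (.a)) (.add (.c 9) (.T))) (.pow (.w) 3)) (.pow (.P) 3)) (.mul (.c 6) (.t))),
    .c 0⟩

/-- free value column 101 -/
def vf101 : VFz := ⟨⟨6, 4, 1, 1, 0⟩, [0, -6765201414720000, 21428197131600000, -134847513914400000, 372640480997400000, -384943370852880000, 132800156226360000],
    .mul (.c (-1)) (.mul (.mul (.mul (.add (.mul (.sub (.c (-8)) (.mul (.c 2) (.T))) (.P)) (.mul (.mul (.mul (.c 12) (.a)) (.add (.c 9) (.T))) (.s))) (.pow (.w) 4)) (.pow (.P) 2)) (.c (-2))),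
    .c 0,
    .mul (.c (-1)) (.mul (.mul (.mul (.mul (.mul (.c 2) (.a)) (.add (.c 9) (.T))) (.pow (.w) 4)) (.pow (.P) 3)) (.c (-2))),
    .c 0⟩

/-- free value column 102 -/
def vf102 : VFz := ⟨⟨6, 4, 2, 0, 0⟩, [0, -6765201414720000, 21428197131600000, -134847513914400000, 372640480997400000, -384943370852880000, 132800156226360000],
    .mul (.c (-1)) (.mul (.mul (.mul (.add (.mul (.sub (.c (-8)) (.mul (.c 2) (.T))) (.P)) (.mul (.mul (.mul (.c 12) (.a)) (.add (.c 9) (.T))) (.s))) (.pow (.w) 4)) (.pow (.P) 2)) (.c 2)),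
    .c 0,
    .mul (.c (-1)) (.mul (.mul (.mul (.mul (.mul (.c 2) (.a)) (.add (.c 9) (.T))) (.pow (.w) 4)) (.pow (.P) 3)) (.c 2)),
    .c 0⟩

/-- free value column 103 -/
def vf103 : VFz := ⟨⟨7, 0, 0, 0, 0⟩, [330981611214240000, -1952766615199680000, 4886441813489040000, -6672919338338400000, 5314791299076000000, -2428296962999040000, 569774975950291680, -46365031765863360, -1641751426588320],
    .c 0,
    .c 0,
    .c 0,
    .c 0⟩

/-- free value column 104 -/
def vf104 : VFz := ⟨⟨7, 0, 0, 0, 1⟩, [-661963222428480000, 3905533230399360000, -9772883626978080000, 13345838676676800000, -10629582598152000000, 4856593925998080000, -1139549951900583360, 92730063531726720, 3283502853176640],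
    .c 0,
    .c 0,
    .c 0,
    .c 0⟩

/-- free value column 105 -/
def vf105 : VFz := ⟨⟨7, 0, 0, 0, 2⟩, [330981611214240000, -1952766615199680000, 4886441813489040000, -6672919338338400000, 5314791299076000000, -2428296962999040000, 569774975950291680, -46365031765863360, -1641751426588320],
    .c 0,
    .mul (.c (-1)) (.mul (.mul (.add (.mul (.sub (.c (-8)) (.mul (.c 2) (.T))) (.P)) (.mul (.mul (.mul (.c 14) (.a)) (.add (.c 9) (.T))) (.s))) (.P)) (.c 2)),
    .c 0,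
    .mul (.c (-1)) (.mul (.mul (.mul (.mul (.c 2) (.a)) (.add (.c 9) (.T))) (.pow (.P) 2)) (.c 2))⟩

/-- free value column 106 -/
def vf106 : VFz := ⟨⟨7, 0, 1, 0, 0⟩, [633300541796160000, -3730159533280320000, 9412519912558560000, -13170569119948800000, 11046600327646800000, -5600948128896960000, 1643006998320183360, -247132397551086720, 13381399355463360],
    .c 0,
    .c 0,
    .c 0,
    .c 0⟩

/-- free value column 107 -/
def vf107 : VFz := ⟨⟨7, 0, 1, 0, 1⟩, [-604637861163840000, 3554785836161280000, -9052156198139040000, 12995299563220800000, -11463618057141600000, 6345302331795840000, -2146464044739783360, 401534731570446720, -30046301564103360],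
    .c 0,
    .c 0,
    .c 0,
    .c 0⟩

/-- free value column 108 -/
def vf108 : VFz := ⟨⟨7, 0, 1, 0, 2⟩, [-28662680632320000, 175373697119040000, -360363714419520000, 175269556728000000, 417017729494800000, -744354202898880000, 503457046419600000, -154402334019360000, 16664902208640000],
    .c 0,
    .mul (.c (-1)) (.mul (.mul (.add (.mul (.sub (.c (-8)) (.mul (.c 2) (.T))) (.P)) (.mul (.mul (.mul (.c 14) (.a)) (.add (.c 9) (.T))) (.s))) (.P)) (.mul (.c 2) (.t))),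
    .c 0,
    .mul (.c (-1)) (.mul (.mul (.mul (.mul (.c 2) (.a)) (.add (.c 9) (.T))) (.pow (.P) 2)) (.mul (.c 2) (.t)))⟩

/-- free value column 109 -/
def vf109 : VFz := ⟨⟨7, 0, 1, 1, 0⟩, [651193607305080000, -5610777680791080000, 8754394201446600000, 12133028570418000000, -48984913103074200000, 57870207846543960000, -31905985044847214160, 7077007576503508320, 15844026495345840],
    .mul (.c (-1)) (.mul (.mul (.add (.mul (.sub (.c (-8)) (.mul (.c 2) (.T))) (.P)) (.mul (.mul (.mul (.c 14) (.a)) (.add (.c 9) (.T))) (.s))) (.P)) (.c (-2))),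
    .c 0,
    .mul (.c (-1)) (.mul (.mul (.mul (.mul (.c 2) (.a)) (.add (.c 9) (.T))) (.pow (.P) 2)) (.c (-2))),
    .c 0⟩

/-- free value column 110 -/
def vf110 : VFz := ⟨⟨7, 0, 1, 1, 1⟩, [-660717285379200000, 2314274132368800000, -11472775753975200000, 50488554439612800000, -108064434299018400000, 115371731384078400000, -60456792134211480000, 12496824418732920000, -16664902208640000],
    .mul (.c (-1)) (.mul (.mul (.add (.mul (.sub (.c (-8)) (.mul (.c 2) (.T))) (.P)) (.mul (.mul (.mul (.c 14) (.a)) (.add (.c 9) (.T))) (.s))) (.P)) (.mul (.c (-2)) (.d))),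
    .c 0,
    .mul (.c (-1)) (.mul (.mul (.mul (.mul (.c 2) (.a)) (.add (.c 9) (.T))) (.pow (.P) 2)) (.mul (.c (-2)) (.d))),
    .c 0⟩

/-- free value column 111 -/
def vf111 : VFz := ⟨⟨7, 0, 1, 1, 2⟩, [7739283691440000, 1223964900108720000, -5276128704935760000, 8907391285002000000, -7461986257076400000, 3244278327232320000, -749469098400120000, 104210264377800000],
    .mul (.c (-1)) (.mul (.mul (.add (.mul (.sub (.c (-8)) (.mul (.c 2) (.T))) (.P)) (.mul (.mul (.mul (.c 14) (.a)) (.add (.c 9) (.T))) (.s))) (.P)) (.mul (.c (-2)) (.pow (.d) 2))),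
    .mul (.c (-1)) (.mul (.mul (.add (.mul (.sub (.c (-8)) (.mul (.c 2) (.T))) (.P)) (.mul (.mul (.mul (.c 14) (.a)) (.add (.c 9) (.T))) (.s))) (.P)) (.mul (.c 2) (.pow (.t) 2))),
    .mul (.c (-1)) (.mul (.mul (.mul (.mul (.c 2) (.a)) (.add (.c 9) (.T))) (.pow (.P) 2)) (.mul (.c (-2)) (.pow (.d) 2))),
    .mul (.c (-1)) (.mul (.mul (.mul (.mul (.c 2) (.a)) (.add (.c 9) (.T))) (.pow (.P) 2)) (.mul (.c 2) (.pow (.t) 2)))⟩

/-- free value column 112 -/
def vf112 : VFz := ⟨⟨7, 0, 2, 0, 0⟩, [-362058789972600000, 6456688260046920000, -15140937226668120000, -640626225296400000, 40209767346987000000, -55298656560876120000, 31983735916836465840, -7223756747552491680, 15844026495345840],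
    .mul (.c (-1)) (.mul (.mul (.add (.mul (.sub (.c (-8)) (.mul (.c 2) (.T))) (.P)) (.mul (.mul (.mul (.c 14) (.a)) (.add (.c 9) (.T))) (.s))) (.P)) (.c 2)),
    .c 0,
    .mul (.c (-1)) (.mul (.mul (.mul (.mul (.c 2) (.a)) (.add (.c 9) (.T))) (.pow (.P) 2)) (.c 2)),
    .c 0⟩

/-- free value column 113 -/
def vf113 : VFz := ⟨⟨7, 0, 2, 0, 1⟩, [687085511878080000, -7560881127041760000, 33298018002557280000, -86468658693076800000, 137078343868334400000, -126860136287209920000, 62447754434972760000, -12604860808205400000, -16664902208640000],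
    .mul (.c (-1)) (.mul (.mul (.add (.mul (.sub (.c (-8)) (.mul (.c 2) (.T))) (.P)) (.mul (.mul (.mul (.c 14) (.a)) (.add (.c 9) (.T))) (.s))) (.P)) (.mul (.c 2) (.d))),
    .c 0,
    .mul (.c (-1)) (.mul (.mul (.mul (.mul (.c 2) (.a)) (.add (.c 9) (.T))) (.pow (.P) 2)) (.mul (.c 2) (.d))),
    .c 0⟩

/-- free value column 114 -/
def vf114 : VFz := ⟨⟨7, 0, 2, 0, 2⟩, [7739283691440000, 1223964900108720000, -5276128704935760000, 8907391285002000000, -7461986257076400000, 3244278327232320000, -749469098400120000, 104210264377800000],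
    .mul (.c (-1)) (.mul (.mul (.add (.mul (.sub (.c (-8)) (.mul (.c 2) (.T))) (.P)) (.mul (.mul (.mul (.c 14) (.a)) (.add (.c 9) (.T))) (.s))) (.P)) (.mul (.c 2) (.pow (.d) 2))),
    .mul (.c (-1)) (.mul (.mul (.add (.mul (.sub (.c (-8)) (.mul (.c 2) (.T))) (.P)) (.mul (.mul (.mul (.c 14) (.a)) (.add (.c 9) (.T))) (.s))) (.P)) (.mul (.c 2) (.pow (.t) 2))),
    .mul (.c (-1)) (.mul (.mul (.mul (.mul (.c 2) (.a)) (.add (.c 9) (.T))) (.pow (.P) 2)) (.mul (.c 2) (.pow (.d) 2))),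
    .mul (.c (-1)) (.mul (.mul (.mul (.mul (.c 2) (.a)) (.add (.c 9) (.T))) (.pow (.P) 2)) (.mul (.c 2) (.pow (.t) 2)))⟩

/-- free value column 115 -/
def vf115 : VFz := ⟨⟨7, 0, 2, 1, 0⟩, [130165335258840000, 3692797854482520000, -18312370512321060000, 33079500370494900000, -27381539297511000000, 9021673150342020000, 290094788079180000, -532820365481880000, 12498676656480000],
    .mul (.c (-1)) (.mul (.mul (.add (.mul (.sub (.c (-8)) (.mul (.c 2) (.T))) (.P)) (.mul (.mul (.mul (.c 14) (.a)) (.add (.c 9) (.T))) (.s))) (.P)) (.mul (.c (-2)) (.t))),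
    .c 0,
    .mul (.c (-1)) (.mul (.mul (.mul (.mul (.c 2) (.a)) (.add (.c 9) (.T))) (.pow (.P) 2)) (.mul (.c (-2)) (.t))),
    .c 0⟩

/-- free value column 116 -/
def vf116 : VFz := ⟨⟨7, 0, 2, 1, 1⟩, [234950756317200000, -5544432719670600000, 21284780392688400000, -34509204220113000000, 27485760386882700000, -9817142268997980000, 416877206652900000, 448410466240380000],
    .mul (.c (-1)) (.mul (.mul (.add (.mul (.sub (.c (-8)) (.mul (.c 2) (.T))) (.P)) (.mul (.mul (.mul (.c 14) (.a)) (.add (.c 9) (.T))) (.s))) (.P)) (.mul (.mul (.c (-2)) (.t)) (.d))),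
    .c 0,
    .mul (.c (-1)) (.mul (.mul (.mul (.mul (.c 2) (.a)) (.add (.c 9) (.T))) (.pow (.P) 2)) (.mul (.mul (.c (-2)) (.t)) (.d))),
    .c 0⟩

/-- free value column 117 -/
def vf117 : VFz := ⟨⟨7, 0, 2, 2, 0⟩, [-2506146583425660000, 15829446053017800000, -46781710736231520000, 79361524935220500000, -84357871383784950000, 46048104057569040000, -7678900482499890000, 78157698283350000],
    .mul (.c (-1)) (.mul (.mul (.add (.mul (.sub (.c (-8)) (.mul (.c 2) (.T))) (.P)) (.mul (.mul (.mul (.c 14) (.a)) (.add (.c 9) (.T))) (.s))) (.P)) (.add (.mul (.c 2) (.pow (.u) 2)) (.mul (.c (-4)) (.pow (.t) 2)))),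
    .c 0,
    .mul (.c (-1)) (.mul (.mul (.mul (.mul (.c 2) (.a)) (.add (.c 9) (.T))) (.pow (.P) 2)) (.add (.mul (.c 2) (.pow (.u) 2)) (.mul (.c (-4)) (.pow (.t) 2)))),
    .c 0⟩

/-- free value column 118 -/
def vf118 : VFz := ⟨⟨7, 0, 2, 2, 1⟩, [-224239594783050000, 2185209230993460000, -5819113373651550000, 1413997123329000000, 16795867262942250000, -25424127133193880000, 11050640104226940000],
    .mul (.c (-1)) (.mul (.mul (.add (.mul (.sub (.c (-8)) (.mul (.c 2) (.T))) (.P)) (.mul (.mul (.mul (.c 14) (.a)) (.add (.c 9) (.T))) (.s))) (.P)) (.add (.mul (.mul (.c 2) (.pow (.u) 2)) (.d)) (.mul (.mul (.c (-4)) (.pow (.t) 2)) (.d)))),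
    .c 0,
    .mul (.c (-1)) (.mul (.mul (.mul (.mul (.c 2) (.a)) (.add (.c 9) (.T))) (.pow (.P) 2)) (.add (.mul (.mul (.c 2) (.pow (.u) 2)) (.d)) (.mul (.mul (.c (-4)) (.pow (.t) 2)) (.d)))),
    .c 0⟩

/-- free value column 119 -/
def vf119 : VFz := ⟨⟨7, 0, 3, 0, 0⟩, [-127870881125400000, 1378435443071400000, -3152508021841500000, 2725334326241100000, -2049388001299800000, 3211085955688380000, -2784514135260060000, 795259088973720000, 4166225552160000],
    .mul (.c (-1)) (.mul (.mul (.add (.mul (.sub (.c (-8)) (.mul (.c 2) (.T))) (.P)) (.mul (.mul (.mul (.c 14) (.a)) (.add (.c 9) (.T))) (.s))) (.P)) (.mul (.c 6) (.t))),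
    .c 0,
    .mul (.c (-1)) (.mul (.mul (.mul (.mul (.c 2) (.a)) (.add (.c 9) (.T))) (.pow (.P) 2)) (.mul (.c 6) (.t))),
    .c 0⟩

/-- free value column 120 -/
def vf120 : VFz := ⟨⟨7, 0, 3, 0, 1⟩, [-265907891082960000, 648573119235720000, -180265572945360000, -1120360919895000000, 2362184641422900000, -3159971039931300000, 2580999186947580000, -865251523751580000],
    .mul (.c (-1)) (.mul (.mul (.add (.mul (.sub (.c (-8)) (.mul (.c 2) (.T))) (.P)) (.mul (.mul (.mul (.c 14) (.a)) (.add (.c 9) (.T))) (.s))) (.P)) (.mul (.mul (.c 6) (.t)) (.d))),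
    .c 0,
    .mul (.c (-1)) (.mul (.mul (.mul (.mul (.c 2) (.a)) (.add (.c 9) (.T))) (.pow (.P) 2)) (.mul (.mul (.c 6) (.t)) (.d))),
    .c 0⟩

/-- free value column 121 -/
def vf121 : VFz := ⟨⟨7, 0, 3, 1, 0⟩, [7739283691440000, 1223964900108720000, -5276128704935760000, 8907391285002000000, -7461986257076400000, 3244278327232320000, -749469098400120000, 104210264377800000],
    .mul (.c (-1)) (.mul (.mul (.add (.mul (.sub (.c (-8)) (.mul (.c 2) (.T))) (.P)) (.mul (.mul (.mul (.c 14) (.a)) (.add (.c 9) (.T))) (.s))) (.P)) (.mul (.c (-2)) (.pow (.u) 2))),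
    .c 0,
    .mul (.c (-1)) (.mul (.mul (.mul (.mul (.c 2) (.a)) (.add (.c 9) (.T))) (.pow (.P) 2)) (.mul (.c (-2)) (.pow (.u) 2))),
    .c 0⟩

/-- free value column 122 -/
def vf122 : VFz := ⟨⟨7, 0, 4, 0, 0⟩, [2513885867117100000, -14605481152909080000, 41505582031295760000, -70454133650218500000, 76895885126708550000, -42803825730336720000, 6929431384099770000, 26052566094450000],
    .mul (.c (-1)) (.mul (.mul (.add (.mul (.sub (.c (-8)) (.mul (.c 2) (.T))) (.P)) (.mul (.mul (.mul (.c 14) (.a)) (.add (.c 9) (.T))) (.s))) (.P)) (.add (.mul (.c 2) (.pow (.u) 2)) (.mul (.c 12) (.pow (.t) 2)))),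
    .c 0,
    .mul (.c (-1)) (.mul (.mul (.mul (.mul (.c 2) (.a)) (.add (.c 9) (.T))) (.pow (.P) 2)) (.add (.mul (.c 2) (.pow (.u) 2)) (.mul (.c 12) (.pow (.t) 2)))),
    .c 0⟩

/-- free value column 123 -/
def vf123 : VFz := ⟨⟨7, 0, 4, 0, 1⟩, [224239594783050000, -2185209230993460000, 5819113373651550000, -1413997123329000000, -16795867262942250000, 25424127133193880000, -11050640104226940000],
    .mul (.c (-1)) (.mul (.mul (.add (.mul (.sub (.c (-8)) (.mul (.c 2) (.T))) (.P)) (.mul (.mul (.mul (.c 14) (.a)) (.add (.c 9) (.T))) (.s))) (.P)) (.add (.mul (.mul (.c 2) (.pow (.u) 2)) (.d)) (.mul (.mul (.c 12) (.pow (.t) 2)) (.d)))),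
    .c 0,
    .mul (.c (-1)) (.mul (.mul (.mul (.mul (.c 2) (.a)) (.add (.c 9) (.T))) (.pow (.P) 2)) (.add (.mul (.mul (.c 2) (.pow (.u) 2)) (.d)) (.mul (.mul (.c 12) (.pow (.t) 2)) (.d)))),
    .c 0⟩

/-- free value column 124 -/
def vf124 : VFz := ⟨⟨7, 1, 0, 0, 0⟩, [-661963222428480000, 3905533230399360000, -9772883626978080000, 13345838676676800000, -10629582598152000000, 4856593925998080000, -1139549951900583360, 92730063531726720, 3283502853176640],
    .c 0,
    .c 0,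
    .c 0,
    .c 0⟩

/-- free value column 125 -/
def vf125 : VFz := ⟨⟨7, 1, 0, 0, 1⟩, [661963222428480000, -3905533230399360000, 9772883626978080000, -13345838676676800000, 10629582598152000000, -4856593925998080000, 1139549951900583360, -92730063531726720, -3283502853176640],
    .c 0,
    .c 0,
    .c 0,
    .c 0⟩

/-- free value column 126 -/
def vf126 : VFz := ⟨⟨7, 1, 1, 0, 0⟩, [-604637861163840000, 3554785836161280000, -9052156198139040000, 12995299563220800000, -11463618057141600000, 6345302331795840000, -2146464044739783360, 401534731570446720, -30046301564103360],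
    .c 0,
    .c 0,
    .c 0,
    .c 0⟩

/-- free value column 127 -/
def vf127 : VFz := ⟨⟨7, 1, 1, 0, 1⟩, [-57325361264640000, 350747394238080000, -720727428839040000, 350539113456000000, 834035458989600000, -1488708405797760000, 1006914092839200000, -308804668038720000, 33329804417280000],
    .c 0,
    .c 0,
    .c 0,
    .c 0⟩

/-- free value column 128 -/
def vf128 : VFz := ⟨⟨7, 1, 1, 1, 0⟩, [13184113249440000, -2623303497336480000, 10912621124291040000, -17990052126732000000, 14506954784658000000, -5744202451565760000, 995481150380640000, -54018194736240000, -16664902208640000],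
    .mul (.c (-1)) (.mul (.mul (.mul (.add (.mul (.sub (.c (-8)) (.mul (.c 2) (.T))) (.P)) (.mul (.mul (.mul (.c 14) (.a)) (.add (.c 9) (.T))) (.s))) (.w)) (.P)) (.c (-2))),
    .c 0,
    .mul (.c (-1)) (.mul (.mul (.mul (.mul (.mul (.c 2) (.a)) (.add (.c 9) (.T))) (.w)) (.pow (.P) 2)) (.c (-2))),
    .c 0⟩

/-- free value column 129 -/
def vf129 : VFz := ⟨⟨7, 1, 1, 1, 1⟩, [15478567382880000, 2447929800217440000, -10552257409871520000, 17814782570004000000, -14923972514152800000, 6488556654464640000, -1498938196800240000, 208420528755600000],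
    .mul (.c (-1)) (.mul (.mul (.mul (.add (.mul (.sub (.c (-8)) (.mul (.c 2) (.T))) (.P)) (.mul (.mul (.mul (.c 14) (.a)) (.add (.c 9) (.T))) (.s))) (.w)) (.P)) (.mul (.c (-2)) (.d))),
    .c 0,
    .mul (.c (-1)) (.mul (.mul (.mul (.mul (.mul (.c 2) (.a)) (.add (.c 9) (.T))) (.w)) (.pow (.P) 2)) (.mul (.c (-2)) (.d))),
    .c 0⟩

/-- free value column 130 -/
def vf130 : VFz := ⟨⟨7, 1, 2, 0, 0⟩, [13184113249440000, -2623303497336480000, 10912621124291040000, -17990052126732000000, 14506954784658000000, -5744202451565760000, 995481150380640000, -54018194736240000, -16664902208640000],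
    .mul (.c (-1)) (.mul (.mul (.mul (.add (.mul (.sub (.c (-8)) (.mul (.c 2) (.T))) (.P)) (.mul (.mul (.mul (.c 14) (.a)) (.add (.c 9) (.T))) (.s))) (.w)) (.P)) (.c 2)),
    .c 0,
    .mul (.c (-1)) (.mul (.mul (.mul (.mul (.mul (.c 2) (.a)) (.add (.c 9) (.T))) (.w)) (.pow (.P) 2)) (.c 2)),
    .c 0⟩

/-- free value column 131 -/
def vf131 : VFz := ⟨⟨7, 1, 2, 0, 1⟩, [15478567382880000, 2447929800217440000, -10552257409871520000, 17814782570004000000, -14923972514152800000, 6488556654464640000, -1498938196800240000, 208420528755600000],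
    .mul (.c (-1)) (.mul (.mul (.mul (.add (.mul (.sub (.c (-8)) (.mul (.c 2) (.T))) (.P)) (.mul (.mul (.mul (.c 14) (.a)) (.add (.c 9) (.T))) (.s))) (.w)) (.P)) (.mul (.c 2) (.d))),
    .c 0,
    .mul (.c (-1)) (.mul (.mul (.mul (.mul (.mul (.c 2) (.a)) (.add (.c 9) (.T))) (.w)) (.pow (.P) 2)) (.mul (.c 2) (.d))),
    .c 0⟩

/-- free value column 132 -/
def vf132 : VFz := ⟨⟨7, 1, 2, 1, 0⟩, [-23217851074320000, -3671894700326160000, 15828386114807280000, -26722173855006000000, 22385958771229200000, -9732834981696960000, 2248407295200360000, -312630793133400000],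
    .mul (.c (-1)) (.mul (.mul (.mul (.add (.mul (.sub (.c (-8)) (.mul (.c 2) (.T))) (.P)) (.mul (.mul (.mul (.c 14) (.a)) (.add (.c 9) (.T))) (.s))) (.w)) (.P)) (.mul (.c (-2)) (.t))),
    .c 0,
    .mul (.c (-1)) (.mul (.mul (.mul (.mul (.mul (.c 2) (.a)) (.add (.c 9) (.T))) (.w)) (.pow (.P) 2)) (.mul (.c (-2)) (.t))),
    .c 0⟩

/-- free value column 133 -/
def vf133 : VFz := ⟨⟨7, 1, 2, 2, 0⟩, [0, 1863114519998340000, -10044145287237600000, 24958679518143000000, -33559551488345400000, 24182902990488060000, -7584274298927340000],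
    .mul (.c (-1)) (.mul (.mul (.mul (.add (.mul (.sub (.c (-8)) (.mul (.c 2) (.T))) (.P)) (.mul (.mul (.mul (.c 14) (.a)) (.add (.c 9) (.T))) (.s))) (.w)) (.P)) (.add (.mul (.c 2) (.pow (.u) 2)) (.mul (.c (-4)) (.pow (.t) 2)))),
    .c 0,
    .mul (.c (-1)) (.mul (.mul (.mul (.mul (.mul (.c 2) (.a)) (.add (.c 9) (.T))) (.w)) (.pow (.P) 2)) (.add (.mul (.c 2) (.pow (.u) 2)) (.mul (.c (-4)) (.pow (.t) 2)))),
    .c 0⟩

/-- free value column 134 -/
def vf134 : VFz := ⟨⟨7, 1, 2, 2, 1⟩, [0, 298273288205340000, -2572323432436800000, 8691439802938200000, -15200028571558950000, 12221180900145000000, -3460688258121360000],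
    .mul (.c (-1)) (.mul (.mul (.mul (.add (.mul (.sub (.c (-8)) (.mul (.c 2) (.T))) (.P)) (.mul (.mul (.mul (.c 14) (.a)) (.add (.c 9) (.T))) (.s))) (.w)) (.P)) (.add (.mul (.mul (.c 2) (.pow (.u) 2)) (.d)) (.mul (.mul (.c (-4)) (.pow (.t) 2)) (.d)))),
    .c 0,
    .mul (.c (-1)) (.mul (.mul (.mul (.mul (.mul (.c 2) (.a)) (.add (.c 9) (.T))) (.w)) (.pow (.P) 2)) (.add (.mul (.mul (.c 2) (.pow (.u) 2)) (.d)) (.mul (.mul (.c (-4)) (.pow (.t) 2)) (.d)))),
    .c 0⟩

/-- free value column 135 -/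
def vf135 : VFz := ⟨⟨7, 1, 3, 0, 0⟩, [-7739283691440000, -1223964900108720000, 5276128704935760000, -8907391285002000000, 7461986257076400000, -3244278327232320000, 749469098400120000, -104210264377800000],
    .mul (.c (-1)) (.mul (.mul (.mul (.add (.mul (.sub (.c (-8)) (.mul (.c 2) (.T))) (.P)) (.mul (.mul (.mul (.c 14) (.a)) (.add (.c 9) (.T))) (.s))) (.w)) (.P)) (.mul (.c 6) (.t))),
    .c 0,
    .mul (.c (-1)) (.mul (.mul (.mul (.mul (.mul (.c 2) (.a)) (.add (.c 9) (.T))) (.w)) (.pow (.P) 2)) (.mul (.c 6) (.t))),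
    .c 0⟩

/-- free value column 136 -/
def vf136 : VFz := ⟨⟨7, 1, 4, 0, 0⟩, [0, -1863114519998340000, 10044145287237600000, -24958679518143000000, 33559551488345400000, -24182902990488060000, 7584274298927340000],
    .mul (.c (-1)) (.mul (.mul (.mul (.add (.mul (.sub (.c (-8)) (.mul (.c 2) (.T))) (.P)) (.mul (.mul (.mul (.c 14) (.a)) (.add (.c 9) (.T))) (.s))) (.w)) (.P)) (.add (.mul (.c 2) (.pow (.u) 2)) (.mul (.c 12) (.pow (.t) 2)))),
    .c 0,
    .mul (.c (-1)) (.mul (.mul (.mul (.mul (.mul (.c 2) (.a)) (.add (.c 9) (.T))) (.w)) (.pow (.P) 2)) (.add (.mul (.c 2) (.pow (.u) 2)) (.mul (.c 12) (.pow (.t) 2)))),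
    .c 0⟩

/-- free value column 137 -/
def vf137 : VFz := ⟨⟨7, 1, 4, 0, 1⟩, [0, -298273288205340000, 2572323432436800000, -8691439802938200000, 15200028571558950000, -12221180900145000000, 3460688258121360000],
    .mul (.c (-1)) (.mul (.mul (.mul (.add (.mul (.sub (.c (-8)) (.mul (.c 2) (.T))) (.P)) (.mul (.mul (.mul (.c 14) (.a)) (.add (.c 9) (.T))) (.s))) (.w)) (.P)) (.add (.mul (.mul (.c 2) (.pow (.u) 2)) (.d)) (.mul (.mul (.c 12) (.pow (.t) 2)) (.d)))),
    .c 0,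
    .mul (.c (-1)) (.mul (.mul (.mul (.mul (.mul (.c 2) (.a)) (.add (.c 9) (.T))) (.w)) (.pow (.P) 2)) (.add (.mul (.mul (.c 2) (.pow (.u) 2)) (.d)) (.mul (.mul (.c 12) (.pow (.t) 2)) (.d)))),
    .c 0⟩

/-- free value column 138 -/
def vf138 : VFz := ⟨⟨7, 2, 0, 0, 0⟩, [330981611214240000, -1952766615199680000, 4886441813489040000, -6672919338338400000, 5314791299076000000, -2428296962999040000, 569774975950291680, -46365031765863360, -1641751426588320],
    .c 0,
    .c 0,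
    .c 0,
    .c 0⟩

/-- free value column 139 -/
def vf139 : VFz := ⟨⟨7, 2, 1, 0, 0⟩, [-28662680632320000, 175373697119040000, -360363714419520000, 175269556728000000, 417017729494800000, -744354202898880000, 503457046419600000, -154402334019360000, 16664902208640000],
    .c 0,
    .c 0,
    .c 0,
    .c 0⟩

/-- free value column 140 -/
def vf140 : VFz := ⟨⟨7, 2, 1, 1, 0⟩, [7739283691440000, 1223964900108720000, -5276128704935760000, 8907391285002000000, -7461986257076400000, 3244278327232320000, -749469098400120000, 104210264377800000],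
    .mul (.c (-1)) (.mul (.mul (.mul (.add (.mul (.sub (.c (-8)) (.mul (.c 2) (.T))) (.P)) (.mul (.mul (.mul (.c 14) (.a)) (.add (.c 9) (.T))) (.s))) (.pow (.w) 2)) (.P)) (.c (-2))),
    .c 0,
    .mul (.c (-1)) (.mul (.mul (.mul (.mul (.mul (.c 2) (.a)) (.add (.c 9) (.T))) (.pow (.w) 2)) (.pow (.P) 2)) (.c (-2))),
    .c 0⟩

/-- free value column 141 -/
def vf141 : VFz := ⟨⟨7, 2, 2, 0, 0⟩, [7739283691440000, 1223964900108720000, -5276128704935760000, 8907391285002000000, -7461986257076400000, 3244278327232320000, -749469098400120000, 104210264377800000],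
    .mul (.c (-1)) (.mul (.mul (.mul (.add (.mul (.sub (.c (-8)) (.mul (.c 2) (.T))) (.P)) (.mul (.mul (.mul (.c 14) (.a)) (.add (.c 9) (.T))) (.s))) (.pow (.w) 2)) (.P)) (.c 2)),
    .c 0,
    .mul (.c (-1)) (.mul (.mul (.mul (.mul (.mul (.c 2) (.a)) (.add (.c 9) (.T))) (.pow (.w) 2)) (.pow (.P) 2)) (.c 2)),
    .c 0⟩

/-- free value column 142 -/
def vf142 : VFz := ⟨⟨7, 2, 2, 2, 0⟩, [0, 113389469744040000, -3115530487953450000, 12374421304946400000, -23771778435436500000, 24103764427887900000, -9791229842714250000],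
    .mul (.c (-1)) (.mul (.mul (.mul (.add (.mul (.sub (.c (-8)) (.mul (.c 2) (.T))) (.P)) (.mul (.mul (.mul (.c 14) (.a)) (.add (.c 9) (.T))) (.s))) (.pow (.w) 2)) (.P)) (.add (.mul (.c 2) (.pow (.u) 2)) (.mul (.c (-4)) (.pow (.t) 2)))),
    .c 0,
    .mul (.c (-1)) (.mul (.mul (.mul (.mul (.mul (.c 2) (.a)) (.add (.c 9) (.T))) (.pow (.w) 2)) (.pow (.P) 2)) (.add (.mul (.c 2) (.pow (.u) 2)) (.mul (.c (-4)) (.pow (.t) 2)))),
    .c 0⟩

/-- free value column 143 -/
def vf143 : VFz := ⟨⟨7, 2, 2, 2, 1⟩, [0, 56447415221400000, -560843064850950000, 2519251532305200000, -5000816720960550000, 4456929239486640000, -1485810771246900000],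
    .mul (.c (-1)) (.mul (.mul (.mul (.add (.mul (.sub (.c (-8)) (.mul (.c 2) (.T))) (.P)) (.mul (.mul (.mul (.c 14) (.a)) (.add (.c 9) (.T))) (.s))) (.pow (.w) 2)) (.P)) (.add (.mul (.mul (.c 2) (.pow (.u) 2)) (.d)) (.mul (.mul (.c (-4)) (.pow (.t) 2)) (.d)))),
    .c 0,
    .mul (.c (-1)) (.mul (.mul (.mul (.mul (.mul (.c 2) (.a)) (.add (.c 9) (.T))) (.pow (.w) 2)) (.pow (.P) 2)) (.add (.mul (.mul (.c 2) (.pow (.u) 2)) (.d)) (.mul (.mul (.c (-4)) (.pow (.t) 2)) (.d)))),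
    .c 0⟩

/-- free value column 144 -/
def vf144 : VFz := ⟨⟨7, 2, 4, 0, 0⟩, [0, -113389469744040000, 3115530487953450000, -12374421304946400000, 23771778435436500000, -24103764427887900000, 9791229842714250000],
    .mul (.c (-1)) (.mul (.mul (.mul (.add (.mul (.sub (.c (-8)) (.mul (.c 2) (.T))) (.P)) (.mul (.mul (.mul (.c 14) (.a)) (.add (.c 9) (.T))) (.s))) (.pow (.w) 2)) (.P)) (.add (.mul (.c 2) (.pow (.u) 2)) (.mul (.c 12) (.pow (.t) 2)))),
    .c 0,
    .mul (.c (-1)) (.mul (.mul (.mul (.mul (.mul (.c 2) (.a)) (.add (.c 9) (.T))) (.pow (.w) 2)) (.pow (.P) 2)) (.add (.mul (.c 2) (.pow (.u) 2)) (.mul (.c 12) (.pow (.t) 2)))),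
    .c 0⟩

/-- free value column 145 -/
def vf145 : VFz := ⟨⟨7, 2, 4, 0, 1⟩, [0, -56447415221400000, 560843064850950000, -2519251532305200000, 5000816720960550000, -4456929239486640000, 1485810771246900000],
    .mul (.c (-1)) (.mul (.mul (.mul (.add (.mul (.sub (.c (-8)) (.mul (.c 2) (.T))) (.P)) (.mul (.mul (.mul (.c 14) (.a)) (.add (.c 9) (.T))) (.s))) (.pow (.w) 2)) (.P)) (.add (.mul (.mul (.c 2) (.pow (.u) 2)) (.d)) (.mul (.mul (.c 12) (.pow (.t) 2)) (.d)))),
    .c 0,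
    .mul (.c (-1)) (.mul (.mul (.mul (.mul (.mul (.c 2) (.a)) (.add (.c 9) (.T))) (.pow (.w) 2)) (.pow (.P) 2)) (.add (.mul (.mul (.c 2) (.pow (.u) 2)) (.d)) (.mul (.mul (.c 12) (.pow (.t) 2)) (.d)))),
    .c 0⟩

/-- free value column 146 -/
def vf146 : VFz := ⟨⟨8, 0, 0, 0, 0⟩, [-83893803764400000, 525943993170960000, -1402426184932080000, 2052499392049680000, -1766570466699360000, 879849537356160000, -224548952166000000, 17458428914640000, 1663413479280000, 24642591120000],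
    .c 0,
    .c 0,
    .c 0,
    .c 0⟩

/-- free value column 147 -/
def vf147 : VFz := ⟨⟨8, 0, 0, 0, 1⟩, [167787607528800000, -1051887986341920000, 2804852369864160000, -4104998784099360000, 3533140933398720000, -1759699074712320000, 449097904332000000, -34916857829280000, -3326826958560000, -49285182240000],
    .c 0,
    .c 0,
    .c 0,
    .c 0⟩

/-- free value column 148 -/
def vf148 : VFz := ⟨⟨8, 0, 0, 0, 2⟩, [-83893803764400000, 525943993170960000, -1402426184932080000, 2052499392049680000, -1766570466699360000, 879849537356160000, -224548952166000000, 17458428914640000, 1663413479280000, 24642591120000],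
    .c 0,
    .mul (.c (-1)) (.mul (.add (.mul (.sub (.c (-8)) (.mul (.c 2) (.T))) (.P)) (.mul (.mul (.mul (.c 16) (.a)) (.add (.c 9) (.T))) (.s))) (.c 2)),
    .c 0,
    .mul (.c (-1)) (.mul (.mul (.mul (.mul (.c 2) (.a)) (.add (.c 9) (.T))) (.P)) (.c 2))⟩

/-- free value column 149 -/
def vf149 : VFz := ⟨⟨8, 0, 1, 0, 0⟩, [-160089882261120000, 1006948541763360000, -2735406006197760000, 4177968138126720000, -3906605273130000000, 2277271494323280000, -804801126825360000, 159507796114800000, -15418002529440000, 624320615520000],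
    .c 0,
    .c 0,
    .c 0,
    .c 0⟩

/-- free value column 150 -/
def vf150 : VFz := ⟨⟨8, 0, 1, 0, 1⟩, [152392156993440000, -962009097184800000, 2665959642531360000, -4250937492154080000, 4280069612861280000, -2794843913934240000, 1160504349318720000, -284098734400320000, 34162832017440000, -1199356048800000],
    .c 0,
    .c 0,
    .c 0,
    .c 0⟩

/-- free value column 151 -/
def vf151 : VFz := ⟨⟨8, 0, 1, 0, 2⟩, [7697725267680000, -44939444578560000, 69446363666400000, 72969354027360000, -373464339731280000, 517572419610960000, -355703222493360000, 124590938285520000, -18744829488000000, 575035433280000],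
    .c 0,
    .mul (.c (-1)) (.mul (.add (.mul (.sub (.c (-8)) (.mul (.c 2) (.T))) (.P)) (.mul (.mul (.mul (.c 16) (.a)) (.add (.c 9) (.T))) (.s))) (.mul (.c 2) (.t))),
    .c 0,
    .mul (.c (-1)) (.mul (.mul (.mul (.mul (.c 2) (.a)) (.add (.c 9) (.T))) (.P)) (.mul (.c 2) (.t)))⟩

/-- free value column 152 -/
def vf152 : VFz := ⟨⟨8, 0, 1, 1, 0⟩, [171336410700840000, -67914145255320000, 1096210761743160000, -9961846985616120000, 27672685647634440000, -39994641981428400000, 33785803252008360000, -15941157704738280000, 3238937388222480000, 587356728840000],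
    .mul (.c (-1)) (.mul (.add (.mul (.sub (.c (-8)) (.mul (.c 2) (.T))) (.P)) (.mul (.mul (.mul (.c 16) (.a)) (.add (.c 9) (.T))) (.s))) (.c (-2))),
    .c 0,
    .mul (.c (-1)) (.mul (.mul (.mul (.mul (.c 2) (.a)) (.add (.c 9) (.T))) (.P)) (.c (-2))),
    .c 0⟩

/-- free value column 153 -/
def vf153 : VFz := ⟨⟨8, 0, 1, 1, 1⟩, [322799828226120000, -2075284004547600000, 9418062634598520000, -30398179521517920000, 58395927489994080000, -63329911478915760000, 36853498574610480000, -9874436501860560000, 688098014845920000, -575035433280000],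
    .mul (.c (-1)) (.mul (.add (.mul (.sub (.c (-8)) (.mul (.c 2) (.T))) (.P)) (.mul (.mul (.mul (.c 16) (.a)) (.add (.c 9) (.T))) (.s))) (.mul (.c (-2)) (.d))),
    .c 0,
    .mul (.c (-1)) (.mul (.mul (.mul (.mul (.c 2) (.a)) (.add (.c 9) (.T))) (.P)) (.mul (.c (-2)) (.d))),
    .c 0⟩

/-- free value column 154 -/
def vf154 : VFz := ⟨⟨8, 0, 1, 1, 2⟩, [-12691748253240000, -369576674293680000, 1777755664223280000, -3290623038808560000, 3149881351079400000, -1669905951472080000, 463887039472920000, -42429714062400000, -6296927885640000],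
    .mul (.c (-1)) (.mul (.add (.mul (.sub (.c (-8)) (.mul (.c 2) (.T))) (.P)) (.mul (.mul (.mul (.c 16) (.a)) (.add (.c 9) (.T))) (.s))) (.mul (.c (-2)) (.pow (.d) 2))),
    .mul (.c (-1)) (.mul (.add (.mul (.sub (.c (-8)) (.mul (.c 2) (.T))) (.P)) (.mul (.mul (.mul (.c 16) (.a)) (.add (.c 9) (.T))) (.s))) (.mul (.c 2) (.pow (.t) 2))),
    .mul (.c (-1)) (.mul (.mul (.mul (.mul (.c 2) (.a)) (.add (.c 9) (.T))) (.P)) (.mul (.c (-2)) (.pow (.d) 2))),
    .mul (.c (-1)) (.mul (.mul (.mul (.mul (.c 2) (.a)) (.add (.c 9) (.T))) (.P)) (.mul (.c 2) (.pow (.t) 2)))⟩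

/-- free value column 155 -/
def vf155 : VFz := ⟨⟨8, 0, 2, 0, 0⟩, [-265218260436360000, -235174099318200000, 1195767109104120000, 5579039008103400000, -23886422091637560000, 38569824455062320000, -33793984570215240000, 16122938582099160000, -3287357489490480000, 587356728840000],
    .mul (.c (-1)) (.mul (.add (.mul (.sub (.c (-8)) (.mul (.c 2) (.T))) (.P)) (.mul (.mul (.mul (.c 16) (.a)) (.add (.c 9) (.T))) (.s))) (.c 2)),
    .c 0,
    .mul (.c (-1)) (.mul (.mul (.mul (.mul (.c 2) (.a)) (.add (.c 9) (.T))) (.P)) (.c 2)),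
    .c 0⟩

/-- free value column 156 -/
def vf156 : VFz := ⟨⟨8, 0, 2, 0, 1⟩, [-287428285748520000, 3643469590879440000, -16667978018824440000, 43414732968697440000, -70248524214849120000, 68974390445582160000, -37997640287515440000, 9794973481539120000, -625420644327360000, -575035433280000],
    .mul (.c (-1)) (.mul (.add (.mul (.sub (.c (-8)) (.mul (.c 2) (.T))) (.P)) (.mul (.mul (.mul (.c 16) (.a)) (.add (.c 9) (.T))) (.s))) (.mul (.c 2) (.d))),
    .c 0,
    .mul (.c (-1)) (.mul (.mul (.mul (.mul (.c 2) (.a)) (.add (.c 9) (.T))) (.P)) (.mul (.c 2) (.d))),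
    .c 0⟩

/-- free value column 157 -/
def vf157 : VFz := ⟨⟨8, 0, 2, 0, 2⟩, [-12691748253240000, -369576674293680000, 1777755664223280000, -3290623038808560000, 3149881351079400000, -1669905951472080000, 463887039472920000, -42429714062400000, -6296927885640000],
    .mul (.c (-1)) (.mul (.add (.mul (.sub (.c (-8)) (.mul (.c 2) (.T))) (.P)) (.mul (.mul (.mul (.c 16) (.a)) (.add (.c 9) (.T))) (.s))) (.mul (.c 2) (.pow (.d) 2))),
    .mul (.c (-1)) (.mul (.add (.mul (.sub (.c (-8)) (.mul (.c 2) (.T))) (.P)) (.mul (.mul (.mul (.c 16) (.a)) (.add (.c 9) (.T))) (.s))) (.mul (.c 2) (.pow (.t) 2))),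
    .mul (.c (-1)) (.mul (.mul (.mul (.mul (.c 2) (.a)) (.add (.c 9) (.T))) (.P)) (.mul (.c 2) (.pow (.d) 2))),
    .mul (.c (-1)) (.mul (.mul (.mul (.mul (.c 2) (.a)) (.add (.c 9) (.T))) (.P)) (.mul (.c 2) (.pow (.t) 2)))⟩

/-- free value column 158 -/
def vf158 : VFz := ⟨⟨8, 0, 2, 1, 0⟩, [-70011313530480000, -862926424368120000, 4935304074193920000, -8795268344136960000, 5441611206022740000, 1917729982510020000, -4389470359396920000, 2224829978089740000, -402230075958900000, 431276574960000],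
    .mul (.c (-1)) (.mul (.add (.mul (.sub (.c (-8)) (.mul (.c 2) (.T))) (.P)) (.mul (.mul (.mul (.c 16) (.a)) (.add (.c 9) (.T))) (.s))) (.mul (.c (-2)) (.t))),
    .c 0,
    .mul (.c (-1)) (.mul (.mul (.mul (.mul (.c 2) (.a)) (.add (.c 9) (.T))) (.P)) (.mul (.c (-2)) (.t))),
    .c 0⟩

/-- free value column 159 -/
def vf159 : VFz := ⟨⟨8, 0, 2, 1, 1⟩, [-43717107577500000, 1709002381239720000, -7108055945378640000, 11797621152410520000, -8439006226795200000, 822261052960200000, 2128373376228540000, -920554901995680000, 54076218908040000],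
    .mul (.c (-1)) (.mul (.add (.mul (.sub (.c (-8)) (.mul (.c 2) (.T))) (.P)) (.mul (.mul (.mul (.c 16) (.a)) (.add (.c 9) (.T))) (.s))) (.mul (.mul (.c (-2)) (.t)) (.d))),
    .c 0,
    .mul (.c (-1)) (.mul (.mul (.mul (.mul (.c 2) (.a)) (.add (.c 9) (.T))) (.P)) (.mul (.mul (.c (-2)) (.t)) (.d))),
    .c 0⟩

/-- free value column 160 -/
def vf160 : VFz := ⟨⟨8, 0, 2, 2, 0⟩, [2502432235004310000, -16989651274274280000, 57530050687130490000, -112772268071170470000, 133949556767687850000, -103760220317562900000, 53615848294581930000, -14071025625482700000, -4722695914230000],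
    .mul (.c (-1)) (.mul (.add (.mul (.sub (.c (-8)) (.mul (.c 2) (.T))) (.P)) (.mul (.mul (.mul (.c 16) (.a)) (.add (.c 9) (.T))) (.s))) (.add (.mul (.c 2) (.pow (.u) 2)) (.mul (.c (-4)) (.pow (.t) 2)))),
    .c 0,
    .mul (.c (-1)) (.mul (.mul (.mul (.mul (.c 2) (.a)) (.add (.c 9) (.T))) (.P)) (.add (.mul (.c 2) (.pow (.u) 2)) (.mul (.c (-4)) (.pow (.t) 2)))),
    .c 0⟩

/-- free value column 161 -/
def vf161 : VFz := ⟨⟨8, 0, 2, 2, 1⟩, [224239594783050000, -2538208876585410000, 9482581078010460000, -20941941808802700000, 38818497851771400000, -53095422585234960000, 39753988547597100000, -11703733801538940000],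
    .mul (.c (-1)) (.mul (.add (.mul (.sub (.c (-8)) (.mul (.c 2) (.T))) (.P)) (.mul (.mul (.mul (.c 16) (.a)) (.add (.c 9) (.T))) (.s))) (.add (.mul (.mul (.c 2) (.pow (.u) 2)) (.d)) (.mul (.mul (.c (-4)) (.pow (.t) 2)) (.d)))),
    .c 0,
    .mul (.c (-1)) (.mul (.mul (.mul (.mul (.c 2) (.a)) (.add (.c 9) (.T))) (.P)) (.add (.mul (.mul (.c 2) (.pow (.u) 2)) (.d)) (.mul (.mul (.c (-4)) (.pow (.t) 2)) (.d)))),
    .c 0⟩

/-- free value column 162 -/
def vf162 : VFz := ⟨⟨8, 0, 3, 0, 0⟩, [26942045785200000, -660319717385160000, 2245164946365600000, -4294254457069920000, 6784449858563580000, -8079781368787380000, 5889315294795240000, -2269957896053820000, 358297534928340000, 143758858320000],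
    .mul (.c (-1)) (.mul (.add (.mul (.sub (.c (-8)) (.mul (.c 2) (.T))) (.P)) (.mul (.mul (.mul (.c 16) (.a)) (.add (.c 9) (.T))) (.s))) (.mul (.c 6) (.t))),
    .c 0,
    .mul (.c (-1)) (.mul (.mul (.mul (.mul (.c 2) (.a)) (.add (.c 9) (.T))) (.P)) (.mul (.c 6) (.t))),
    .c 0⟩

/-- free value column 163 -/
def vf163 : VFz := ⟨⟨8, 0, 3, 0, 1⟩, [94484100590460000, -230695684065000000, -2966711514480000, 1364871002823720000, -4160519177522400000, 5857362752928120000, -3983921534120220000, 1090273758245280000, -28888507365480000],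
    .mul (.c (-1)) (.mul (.add (.mul (.sub (.c (-8)) (.mul (.c 2) (.T))) (.P)) (.mul (.mul (.mul (.c 16) (.a)) (.add (.c 9) (.T))) (.s))) (.mul (.mul (.c 6) (.t)) (.d))),
    .c 0,
    .mul (.c (-1)) (.mul (.mul (.mul (.mul (.c 2) (.a)) (.add (.c 9) (.T))) (.P)) (.mul (.mul (.c 6) (.t)) (.d))),
    .c 0⟩

/-- free value column 164 -/
def vf164 : VFz := ⟨⟨8, 0, 3, 1, 0⟩, [-12691748253240000, -369576674293680000, 1777755664223280000, -3290623038808560000, 3149881351079400000, -1669905951472080000, 463887039472920000, -42429714062400000, -6296927885640000],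
    .mul (.c (-1)) (.mul (.add (.mul (.sub (.c (-8)) (.mul (.c 2) (.T))) (.P)) (.mul (.mul (.mul (.c 16) (.a)) (.add (.c 9) (.T))) (.s))) (.mul (.c (-2)) (.pow (.u) 2))),
    .c 0,
    .mul (.c (-1)) (.mul (.mul (.mul (.mul (.c 2) (.a)) (.add (.c 9) (.T))) (.P)) (.mul (.c (-2)) (.pow (.u) 2))),
    .c 0⟩

/-- free value column 165 -/
def vf165 : VFz := ⟨⟨8, 0, 4, 0, 0⟩, [-2515123983257550000, 16620074599980600000, -55752295022907210000, 109481645032361910000, -130799675416608450000, 102090314366090820000, -53151961255109010000, 14028595911420300000, -1574231971410000],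
    .mul (.c (-1)) (.mul (.add (.mul (.sub (.c (-8)) (.mul (.c 2) (.T))) (.P)) (.mul (.mul (.mul (.c 16) (.a)) (.add (.c 9) (.T))) (.s))) (.add (.mul (.c 2) (.pow (.u) 2)) (.mul (.c 12) (.pow (.t) 2)))),
    .c 0,
    .mul (.c (-1)) (.mul (.mul (.mul (.mul (.c 2) (.a)) (.add (.c 9) (.T))) (.P)) (.add (.mul (.c 2) (.pow (.u) 2)) (.mul (.c 12) (.pow (.t) 2)))),
    .c 0⟩

/-- free value column 166 -/
def vf166 : VFz := ⟨⟨8, 0, 4, 0, 1⟩, [-224239594783050000, 2538208876585410000, -9482581078010460000, 20941941808802700000, -38818497851771400000, 53095422585234960000, -39753988547597100000, 11703733801538940000],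
    .mul (.c (-1)) (.mul (.add (.mul (.sub (.c (-8)) (.mul (.c 2) (.T))) (.P)) (.mul (.mul (.mul (.c 16) (.a)) (.add (.c 9) (.T))) (.s))) (.add (.mul (.mul (.c 2) (.pow (.u) 2)) (.d)) (.mul (.mul (.c 12) (.pow (.t) 2)) (.d)))),
    .c 0,
    .mul (.c (-1)) (.mul (.mul (.mul (.mul (.c 2) (.a)) (.add (.c 9) (.T))) (.P)) (.add (.mul (.mul (.c 2) (.pow (.u) 2)) (.d)) (.mul (.mul (.c 12) (.pow (.t) 2)) (.d)))),
    .c 0⟩

/-- free value column 167 -/
def vf167 : VFz := ⟨⟨8, 1, 0, 0, 0⟩, [167787607528800000, -1051887986341920000, 2804852369864160000, -4104998784099360000, 3533140933398720000, -1759699074712320000, 449097904332000000, -34916857829280000, -3326826958560000, -49285182240000],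
    .c 0,
    .c 0,
    .c 0,
    .c 0⟩

/-- free value column 168 -/
def vf168 : VFz := ⟨⟨8, 1, 0, 0, 1⟩, [-167787607528800000, 1051887986341920000, -2804852369864160000, 4104998784099360000, -3533140933398720000, 1759699074712320000, -449097904332000000, 34916857829280000, 3326826958560000, 49285182240000],
    .c 0,
    .c 0,
    .c 0,
    .c 0⟩

/-- free value column 169 -/
def vf169 : VFz := ⟨⟨8, 1, 1, 0, 0⟩, [152392156993440000, -962009097184800000, 2665959642531360000, -4250937492154080000, 4280069612861280000, -2794843913934240000, 1160504349318720000, -284098734400320000, 34162832017440000, -1199356048800000],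
    .c 0,
    .c 0,
    .c 0,
    .c 0⟩

/-- free value column 170 -/
def vf170 : VFz := ⟨⟨8, 1, 1, 0, 1⟩, [15395450535360000, -89878889157120000, 138892727332800000, 145938708054720000, -746928679462560000, 1035144839221920000, -711406444986720000, 249181876571040000, -37489658976000000, 1150070866560000],
    .c 0,
    .c 0,
    .c 0,
    .c 0⟩

/-- free value column 171 -/
def vf171 : VFz := ⟨⟨8, 1, 1, 1, 0⟩, [17685771238800000, 784092793165920000, -3624957692112960000, 6508276723589760000, -5926298362427520000, 2822239483333200000, -572070856452480000, -39731510160720000, 31338685259280000, -575035433280000],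
    .mul (.c (-1)) (.mul (.mul (.add (.mul (.sub (.c (-8)) (.mul (.c 2) (.T))) (.P)) (.mul (.mul (.mul (.c 16) (.a)) (.add (.c 9) (.T))) (.s))) (.w)) (.c (-2))),
    .c 0,
    .mul (.c (-1)) (.mul (.mul (.mul (.mul (.mul (.c 2) (.a)) (.add (.c 9) (.T))) (.w)) (.P)) (.c (-2))),
    .c 0⟩

/-- free value column 172 -/
def vf172 : VFz := ⟨⟨8, 1, 1, 1, 1⟩, [-25383496506480000, -739153348587360000, 3555511328446560000, -6581246077617120000, 6299762702158800000, -3339811902944160000, 927774078945840000, -84859428124800000, -12593855771280000],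
    .mul (.c (-1)) (.mul (.mul (.add (.mul (.sub (.c (-8)) (.mul (.c 2) (.T))) (.P)) (.mul (.mul (.mul (.c 16) (.a)) (.add (.c 9) (.T))) (.s))) (.w)) (.mul (.c (-2)) (.d))),
    .c 0,
    .mul (.c (-1)) (.mul (.mul (.mul (.mul (.mul (.c 2) (.a)) (.add (.c 9) (.T))) (.w)) (.P)) (.mul (.c (-2)) (.d))),
    .c 0⟩

/-- free value column 173 -/
def vf173 : VFz := ⟨⟨8, 1, 2, 0, 0⟩, [17685771238800000, 784092793165920000, -3624957692112960000, 6508276723589760000, -5926298362427520000, 2822239483333200000, -572070856452480000, -39731510160720000, 31338685259280000, -575035433280000],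
    .mul (.c (-1)) (.mul (.mul (.add (.mul (.sub (.c (-8)) (.mul (.c 2) (.T))) (.P)) (.mul (.mul (.mul (.c 16) (.a)) (.add (.c 9) (.T))) (.s))) (.w)) (.c 2)),
    .c 0,
    .mul (.c (-1)) (.mul (.mul (.mul (.mul (.mul (.c 2) (.a)) (.add (.c 9) (.T))) (.w)) (.P)) (.c 2)),
    .c 0⟩

/-- free value column 174 -/
def vf174 : VFz := ⟨⟨8, 1, 2, 0, 1⟩, [-25383496506480000, -739153348587360000, 3555511328446560000, -6581246077617120000, 6299762702158800000, -3339811902944160000, 927774078945840000, -84859428124800000, -12593855771280000],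
    .mul (.c (-1)) (.mul (.mul (.add (.mul (.sub (.c (-8)) (.mul (.c 2) (.T))) (.P)) (.mul (.mul (.mul (.c 16) (.a)) (.add (.c 9) (.T))) (.s))) (.w)) (.mul (.c 2) (.d))),
    .c 0,
    .mul (.c (-1)) (.mul (.mul (.mul (.mul (.mul (.c 2) (.a)) (.add (.c 9) (.T))) (.w)) (.P)) (.mul (.c 2) (.d))),
    .c 0⟩

/-- free value column 175 -/
def vf175 : VFz := ⟨⟨8, 1, 2, 1, 0⟩, [38075244759720000, 1108730022881040000, -5333266992669840000, 9871869116425680000, -9449644053238200000, 5009717854416240000, -1391661118418760000, 127289142187200000, 18890783656920000],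
    .mul (.c (-1)) (.mul (.mul (.add (.mul (.sub (.c (-8)) (.mul (.c 2) (.T))) (.P)) (.mul (.mul (.mul (.c 16) (.a)) (.add (.c 9) (.T))) (.s))) (.w)) (.mul (.c (-2)) (.t))),
    .c 0,
    .mul (.c (-1)) (.mul (.mul (.mul (.mul (.mul (.c 2) (.a)) (.add (.c 9) (.T))) (.w)) (.P)) (.mul (.c (-2)) (.t))),
    .c 0⟩

/-- free value column 176 -/
def vf176 : VFz := ⟨⟨8, 1, 3, 0, 0⟩, [12691748253240000, 369576674293680000, -1777755664223280000, 3290623038808560000, -3149881351079400000, 1669905951472080000, -463887039472920000, 42429714062400000, 6296927885640000],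
    .mul (.c (-1)) (.mul (.mul (.add (.mul (.sub (.c (-8)) (.mul (.c 2) (.T))) (.P)) (.mul (.mul (.mul (.c 16) (.a)) (.add (.c 9) (.T))) (.s))) (.w)) (.mul (.c 6) (.t))),
    .c 0,
    .mul (.c (-1)) (.mul (.mul (.mul (.mul (.mul (.c 2) (.a)) (.add (.c 9) (.T))) (.w)) (.P)) (.mul (.c 6) (.t))),
    .c 0⟩

/-- free value column 177 -/
def vf177 : VFz := ⟨⟨8, 2, 0, 0, 0⟩, [-83893803764400000, 525943993170960000, -1402426184932080000, 2052499392049680000, -1766570466699360000, 879849537356160000, -224548952166000000, 17458428914640000, 1663413479280000, 24642591120000],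
    .c 0,
    .c 0,
    .c 0,
    .c 0⟩

/-- free value column 178 -/
def vf178 : VFz := ⟨⟨8, 2, 1, 0, 0⟩, [7697725267680000, -44939444578560000, 69446363666400000, 72969354027360000, -373464339731280000, 517572419610960000, -355703222493360000, 124590938285520000, -18744829488000000, 575035433280000],
    .c 0,
    .c 0,
    .c 0,
    .c 0⟩

/-- free value column 179 -/
def vf179 : VFz := ⟨⟨8, 2, 1, 1, 0⟩, [-12691748253240000, -369576674293680000, 1777755664223280000, -3290623038808560000, 3149881351079400000, -1669905951472080000, 463887039472920000, -42429714062400000, -6296927885640000],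
    .mul (.c (-1)) (.mul (.mul (.add (.mul (.sub (.c (-8)) (.mul (.c 2) (.T))) (.P)) (.mul (.mul (.mul (.c 16) (.a)) (.add (.c 9) (.T))) (.s))) (.pow (.w) 2)) (.c (-2))),
    .c 0,
    .mul (.c (-1)) (.mul (.mul (.mul (.mul (.mul (.c 2) (.a)) (.add (.c 9) (.T))) (.pow (.w) 2)) (.P)) (.c (-2))),
    .c 0⟩

/-- free value column 180 -/
def vf180 : VFz := ⟨⟨8, 2, 2, 0, 0⟩, [-12691748253240000, -369576674293680000, 1777755664223280000, -3290623038808560000, 3149881351079400000, -1669905951472080000, 463887039472920000, -42429714062400000, -6296927885640000],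
    .mul (.c (-1)) (.mul (.mul (.add (.mul (.sub (.c (-8)) (.mul (.c 2) (.T))) (.P)) (.mul (.mul (.mul (.c 16) (.a)) (.add (.c 9) (.T))) (.s))) (.pow (.w) 2)) (.c 2)),
    .c 0,
    .mul (.c (-1)) (.mul (.mul (.mul (.mul (.mul (.c 2) (.a)) (.add (.c 9) (.T))) (.pow (.w) 2)) (.P)) (.c 2)),
    .c 0⟩

/-- free row column 0 -/
def rf0 : RFz := ⟨⟨0, 5, 0, [(0, 1)]⟩, [-132172703628260400, 248876304748621200, 138938090357113200, -505483942500648000, 249917626461501000],
    .mul (.pow (.P) 3) (.mul (.c (-200)) (.T)),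
    .c 0⟩

/-- free row column 1 -/
def rf1 : RFz := ⟨⟨0, 5, 1, [(0, 1)]⟩, [0, 381121861319873280, -845418405838478040, 480336892590382020, -15580557897982560],
    .mul (.pow (.P) 3) (.mul (.mul (.c 200) (.T)) (.t)),
    .c 0⟩

/-- free row column 2 -/
def rf2 : RFz := ⟨⟨0, 6, 0, [(0, 1)]⟩, [234399230043919200, -451069881748880400, -38971039772512800, 505483942500648000, -262826049271492800, 12983798248318800],
    .mul (.pow (.P) 2) (.mul (.c (-240)) (.T)),
    .c 0⟩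

/-- free row column 3 -/
def rf3 : RFz := ⟨⟨0, 6, 1, [(0, 1)]⟩, [0, 153860217655626000, -254128769993534400, -122044184681464800, 388924487993707200, -166611750974334000],
    .mul (.pow (.P) 2) (.mul (.mul (.c 240) (.T)) (.t)),
    .c 0⟩

/-- free row column 4 -/
def rf4 : RFz := ⟨⟨0, 6, 2, [(0, 1)]⟩, [0, 0, -22883129076143437200, 46766209113263692800, -22614191231530307400, -1285396026583561200],
    .mul (.pow (.P) 2) (.add (.add (.add (.add (.add (.add (.mul (.mul (.c 4) (.P)) (.v)) (.mul (.mul (.c 4) (.P)) (.t))) (.mul (.mul (.c (-18)) (.P)) (.s))) (.mul (.mul (.c (-240)) (.T)) (.pow (.u) 2))) (.mul (.mul (.c 480) (.T)) (.pow (.t) 2))) (.mul (.mul (.c 12) (.T)) (.w))) (.mul (.mul (.mul (.c 12) (.T)) (.w)) (.s))),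
    .c 0⟩

/-- free row column 5 -/
def rf5 : RFz := ⟨⟨0, 6, 3, [(0, 1)]⟩, [0, 0, 0, 2271609673242681600, -5597211654156585600, 3332235019486680000],
    .mul (.pow (.P) 2) (.add (.add (.add (.add (.add (.add (.mul (.mul (.mul (.c 6) (.P)) (.t)) (.v)) (.mul (.mul (.c 6) (.P)) (.pow (.t) 2))) (.mul (.mul (.mul (.c (-66)) (.P)) (.s)) (.t))) (.mul (.mul (.mul (.c (-240)) (.T)) (.t)) (.pow (.u) 2))) (.mul (.mul (.c 480) (.T)) (.pow (.t) 3))) (.mul (.mul (.mul (.c 36) (.T)) (.w)) (.t))) (.mul (.mul (.mul (.mul (.c 36) (.T)) (.w)) (.s)) (.t))),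
    .c 0⟩

/-- free row column 6 -/
def rf6 : RFz := ⟨⟨0, 7, 0, [(0, 1)]⟩, [-102226526415658800, 202193577000259200, -99967050584600400, 0, 102226526415658800, -202193577000259200, 99967050584600400],
    .mul (.P) (.mul (.c (-280)) (.T)),
    .c 0⟩

/-- free row column 7 -/
def rf7 : RFz := ⟨⟨0, 7, 1, [(0, 1)]⟩, [0, -408906105662635200, 808774308001036800, 9037903324233600, -808774308001036800, 399868202338401600],
    .mul (.P) (.mul (.mul (.c 280) (.T)) (.t)),
    .c 0⟩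

/-- free row column 8 -/
def rf8 : RFz := ⟨⟨0, 7, 2, [(0, 1)]⟩, [0, 0, 8571415377951205200, -18459108333227404800, 3369853158237410400, 14415236793222220800, -7897396996183431600],
    .mul (.P) (.add (.add (.add (.add (.add (.add (.mul (.mul (.c 4) (.P)) (.v)) (.mul (.mul (.c 4) (.P)) (.t))) (.mul (.mul (.c (-18)) (.P)) (.s))) (.mul (.mul (.c (-280)) (.T)) (.pow (.u) 2))) (.mul (.mul (.c 560) (.T)) (.pow (.t) 2))) (.mul (.mul (.c 14) (.T)) (.w))) (.mul (.mul (.mul (.c 14) (.T)) (.w)) (.s))),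
    .c 0⟩

/-- free row column 9 -/
def rf9 : RFz := ⟨⟨0, 7, 3, [(0, 1)]⟩, [0, 0, 0, 4089061056626352000, -8087743080010368000, 3998682023384016000],
    .mul (.P) (.add (.add (.add (.add (.add (.add (.mul (.mul (.mul (.c 6) (.P)) (.t)) (.v)) (.mul (.mul (.c 6) (.P)) (.pow (.t) 2))) (.mul (.mul (.mul (.c (-66)) (.P)) (.s)) (.t))) (.mul (.mul (.mul (.c (-280)) (.T)) (.t)) (.pow (.u) 2))) (.mul (.mul (.c 560) (.T)) (.pow (.t) 3))) (.mul (.mul (.mul (.c 42) (.T)) (.w)) (.t))) (.mul (.mul (.mul (.mul (.c 42) (.T)) (.w)) (.s)) (.t))),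
    .c 0⟩

/-- free row column 10 -/
def rf10 : RFz := ⟨⟨0, 7, 4, [(0, 1)]⟩, [0, 0, 0, 0, 47497541114452320000, -114021640802862720000, 66644700389733600000],
    .mul (.P) (.add (.add (.add (.add (.add (.add (.add (.add (.add (.add (.mul (.mul (.mul (.c 8) (.P)) (.pow (.u) 2)) (.v)) (.mul (.mul (.mul (.c 8) (.P)) (.t)) (.pow (.u) 2))) (.mul (.mul (.mul (.c (-18)) (.P)) (.s)) (.pow (.u) 2))) (.mul (.mul (.mul (.c (-156)) (.P)) (.s)) (.pow (.t) 2))) (.mul (.mul (.c (-280)) (.T)) (.pow (.u) 4))) (.mul (.mul (.mul (.c 280) (.T)) (.pow (.t) 2)) (.pow (.u) 2))) (.mul (.mul (.c 280) (.T)) (.pow (.t) 4))) (.mul (.mul (.mul (.c 14) (.T)) (.w)) (.pow (.u) 2))) (.mul (.mul (.mul (.c 84) (.T)) (.w)) (.pow (.t) 2))) (.mul (.mul (.mul (.mul (.c 14) (.T)) (.w)) (.s)) (.pow (.u) 2))) (.mul (.mul (.mul (.mul (.c 84) (.T)) (.w)) (.s)) (.pow (.t) 2))),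
    .c 0⟩

/-- free row column 11 -/
def rf11 : RFz := ⟨⟨0, 8, 2, [(0, 1)]⟩, [0, 0, 14311713698192232000, -28307100780036288000, -316326616348176000, 28307100780036288000, -13995387081844056000],
    .add (.add (.add (.add (.add (.add (.mul (.mul (.c 4) (.P)) (.v)) (.mul (.mul (.c 4) (.P)) (.t))) (.mul (.mul (.c (-18)) (.P)) (.s))) (.mul (.mul (.c (-320)) (.T)) (.pow (.u) 2))) (.mul (.mul (.c 640) (.T)) (.pow (.t) 2))) (.mul (.mul (.c 16) (.T)) (.w))) (.mul (.mul (.mul (.c 16) (.T)) (.w)) (.s)),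
    .c 0⟩

/-- free row column 12 -/
def rf12 : RFz := ⟨⟨0, 8, 4, [(0, 1)]⟩, [0, 0, 0, 0, 95411424654614880000, -188714005200241920000, 93302580545627040000],
    .add (.add (.add (.add (.add (.add (.add (.add (.add (.add (.mul (.mul (.mul (.c 8) (.P)) (.pow (.u) 2)) (.v)) (.mul (.mul (.mul (.c 8) (.P)) (.t)) (.pow (.u) 2))) (.mul (.mul (.mul (.c (-18)) (.P)) (.s)) (.pow (.u) 2))) (.mul (.mul (.mul (.c (-156)) (.P)) (.s)) (.pow (.t) 2))) (.mul (.mul (.c (-320)) (.T)) (.pow (.u) 4))) (.mul (.mul (.mul (.c 320) (.T)) (.pow (.t) 2)) (.pow (.u) 2))) (.mul (.mul (.c 320) (.T)) (.pow (.t) 4))) (.mul (.mul (.mul (.c 16) (.T)) (.w)) (.pow (.u) 2))) (.mul (.mul (.mul (.c 96) (.T)) (.w)) (.pow (.t) 2))) (.mul (.mul (.mul (.mul (.c 16) (.T)) (.w)) (.s)) (.pow (.u) 2))) (.mul (.mul (.mul (.mul (.c 96) (.T)) (.w)) (.s)) (.pow (.t) 2)),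
    .c 0⟩

/-- free row column 13 -/
def rf13 : RFz := ⟨⟨0, 5, 0, [(1, 1)]⟩, [0, -29946177212601600, 46682727748362000, 22064093332542000, -38951394744956400],
    .mul (.pow (.P) 3) (.add (.mul (.c (-40)) (.P)) (.mul (.mul (.c (-200)) (.T)) (.s))),
    .c 0⟩

/-- free row column 14 -/
def rf14 : RFz := ⟨⟨0, 5, 1, [(1, 1)]⟩, [0, 0, 33572127105324000, 90444493146339000, -124958813230750500],
    .mul (.pow (.P) 3) (.add (.mul (.mul (.c 40) (.P)) (.t)) (.mul (.mul (.mul (.c 200) (.T)) (.s)) (.t))),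
    .c 0⟩

/-- free row column 15 -/
def rf15 : RFz := ⟨⟨0, 6, 2, [(1, 1)]⟩, [0, 0, 0, 7170835566500840160, -20379249377514520560, 13245634202459553000],
    .mul (.pow (.P) 2) (.add (.add (.add (.add (.add (.add (.add (.add (.add (.add (.mul (.mul (.c (-40)) (.P)) (.pow (.u) 2)) (.mul (.mul (.c 80) (.P)) (.pow (.t) 2))) (.mul (.mul (.mul (.c 4) (.P)) (.s)) (.v))) (.mul (.mul (.mul (.c 4) (.P)) (.s)) (.t))) (.mul (.mul (.c (-18)) (.P)) (.pow (.s) 2))) (.mul (.mul (.c 2) (.P)) (.w))) (.mul (.mul (.mul (.c 2) (.P)) (.w)) (.s))) (.mul (.mul (.mul (.c (-240)) (.T)) (.s)) (.pow (.u) 2))) (.mul (.mul (.mul (.c 480) (.T)) (.s)) (.pow (.t) 2))) (.mul (.mul (.mul (.c 12) (.T)) (.w)) (.s))) (.mul (.mul (.mul (.c 12) (.T)) (.w)) (.pow (.s) 2))),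
    .c 0⟩

/-- free row column 16 -/
def rf16 : RFz := ⟨⟨0, 6, 3, [(1, 1)]⟩, [0, 0, 0, 0, 619604294879606400, -623222315919302400],
    .mul (.pow (.P) 2) (.add (.add (.add (.add (.add (.add (.add (.add (.add (.add (.mul (.mul (.mul (.c (-40)) (.P)) (.t)) (.pow (.u) 2)) (.mul (.mul (.c 80) (.P)) (.pow (.t) 3))) (.mul (.mul (.mul (.mul (.c 6) (.P)) (.s)) (.t)) (.v))) (.mul (.mul (.mul (.c 6) (.P)) (.s)) (.pow (.t) 2))) (.mul (.mul (.mul (.c (-66)) (.P)) (.pow (.s) 2)) (.t))) (.mul (.mul (.mul (.c 6) (.P)) (.w)) (.t))) (.mul (.mul (.mul (.mul (.c 6) (.P)) (.w)) (.s)) (.t))) (.mul (.mul (.mul (.mul (.c (-240)) (.T)) (.s)) (.t)) (.pow (.u) 2))) (.mul (.mul (.mul (.c 480) (.T)) (.s)) (.pow (.t) 3))) (.mul (.mul (.mul (.mul (.c 36) (.T)) (.w)) (.s)) (.t))) (.mul (.mul (.mul (.mul (.c 36) (.T)) (.w)) (.pow (.s) 2)) (.t))),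
    .c 0⟩

/-- free row column 17 -/
def rf17 : RFz := ⟨⟨0, 7, 4, [(1, 1)]⟩, [0, 0, 0, 0, 0, 10326738247993440000, -10387038598655040000],
    .mul (.P) (.add (.add (.add (.add (.add (.add (.add (.add (.add (.add (.add (.add (.add (.add (.add (.add (.add (.mul (.mul (.c (-40)) (.P)) (.pow (.u) 4)) (.mul (.mul (.mul (.c 40) (.P)) (.pow (.t) 2)) (.pow (.u) 2))) (.mul (.mul (.c 40) (.P)) (.pow (.t) 4))) (.mul (.mul (.mul (.mul (.c 8) (.P)) (.s)) (.pow (.u) 2)) (.v))) (.mul (.mul (.mul (.mul (.c 8) (.P)) (.s)) (.t)) (.pow (.u) 2))) (.mul (.mul (.mul (.c (-18)) (.P)) (.pow (.s) 2)) (.pow (.u) 2))) (.mul (.mul (.mul (.c (-156)) (.P)) (.pow (.s) 2)) (.pow (.t) 2))) (.mul (.mul (.mul (.c 2) (.P)) (.w)) (.pow (.u) 2))) (.mul (.mul (.mul (.c 12) (.P)) (.w)) (.pow (.t) 2))) (.mul (.mul (.mul (.mul (.c 2) (.P)) (.w)) (.s)) (.pow (.u) 2))) (.mul (.mul (.mul (.mul (.c 12) (.P)) (.w)) (.s)) (.pow (.t) 2))) (.mul (.mul (.mul (.c (-280)) (.T)) (.s))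 (.pow (.u) 4))) (.mul (.mul (.mul (.mul (.c 280) (.T)) (.s)) (.pow (.t) 2)) (.pow (.u) 2))) (.mul (.mul (.mul (.c 280) (.T)) (.s)) (.pow (.t) 4))) (.mul (.mul (.mul (.mul (.c 14) (.T)) (.w)) (.s)) (.pow (.u) 2))) (.mul (.mul (.mul (.mul (.c 84) (.T)) (.w)) (.s)) (.pow (.t) 2))) (.mul (.mul (.mul (.mul (.c 14) (.T)) (.w)) (.pow (.s) 2)) (.pow (.u) 2))) (.mul (.mul (.mul (.mul (.c 84) (.T)) (.w)) (.pow (.s) 2)) (.pow (.t) 2))),
    .c 0⟩

/-- free row column 18 -/
def rf18 : RFz := ⟨⟨0, 5, 0, [(2, 1)]⟩, [0, 0, 72280349203057200, -155510849251897200, 83305875487167000],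
    .mul (.mul (.s) (.pow (.P) 3)) (.add (.mul (.c (-80)) (.P)) (.mul (.mul (.c (-200)) (.T)) (.s))),
    .c 0⟩

/-- free row column 19 -/
def rf19 : RFz := ⟨⟨0, 5, 1, [(2, 1)]⟩, [0, 0, 0, -51633691239967200, 51935192993275200],
    .mul (.mul (.s) (.pow (.P) 3)) (.add (.mul (.mul (.c 80) (.P)) (.t)) (.mul (.mul (.mul (.c 200) (.T)) (.s)) (.t))),
    .c 0⟩

/-- free row column 20 -/
def rf20 : RFz := ⟨⟨0, 6, 2, [(2, 1)]⟩, [0, 0, 0, 0, 2772729219586238640, -2788919863738878240],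
    .mul (.mul (.s) (.pow (.P) 2)) (.add (.add (.add (.add (.add (.add (.add (.add (.add (.add (.mul (.mul (.c (-80)) (.P)) (.pow (.u) 2)) (.mul (.mul (.c 160) (.P)) (.pow (.t) 2))) (.mul (.mul (.mul (.c 4) (.P)) (.s)) (.v))) (.mul (.mul (.mul (.c 4) (.P)) (.s)) (.t))) (.mul (.mul (.c (-18)) (.P)) (.pow (.s) 2))) (.mul (.mul (.c 4) (.P)) (.w))) (.mul (.mul (.mul (.c 4) (.P)) (.w)) (.s))) (.mul (.mul (.mul (.c (-240)) (.T)) (.s)) (.pow (.u) 2))) (.mul (.mul (.mul (.c 480) (.T)) (.s)) (.pow (.t) 2))) (.mul (.mul (.mul (.c 12) (.T)) (.w)) (.s))) (.mul (.mul (.mul (.c 12) (.T)) (.w)) (.pow (.s) 2))),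
    .c 0⟩

/-- free row column 21 -/
def rf21 : RFz := ⟨⟨0, 5, 0, [(3, 1)]⟩, [0, 0, 0, 15490107371990160, -15580557897982560],
    .mul (.mul (.pow (.s) 2) (.pow (.P) 3)) (.add (.mul (.c (-120)) (.P)) (.mul (.mul (.c (-200)) (.T)) (.s))),
    .c 0⟩

/-- free row column 22 -/
def rf22 : RFz := ⟨⟨1, 4, 0, [(0, 1)]⟩, [12370586923016928, -22711068044791416, 7231907086010676, 3116111579596512],
    .c 0,
    .c 0⟩

/-- free row column 23 -/
def rf23 : RFz := ⟨⟨1, 5, 0, [(0, 1)]⟩, [-17894846403061668, 34892260019976816, 559692715627404, -34218281429975952, 16661175097433400],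
    .c 0,
    .c 0⟩

/-- free row column 24 -/
def rf24 : RFz := ⟨⟨1, 5, 1, [(0, 1)]⟩, [0, -588583168938244800, 1088870674491208800, -383659447633075800, -116854184234869200],
    .mul (.pow (.P) 3) (.add (.add (.mul (.c (-400)) (.P)) (.mul (.mul (.c 200) (.T)) (.v))) (.mul (.mul (.c 200) (.T)) (.t))),
    .mul (.pow (.P) 3) (.mul (.c (-2)) (.P))⟩

/-- free row column 25 -/
def rf25 : RFz := ⟨⟨1, 6, 0, [(0, 1)]⟩, [-4698393161521140, 8038165724840520, 2657000423033640, -9336545549672400, 2041392738487500, 1298379824831880],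
    .c 0,
    .c 0⟩

/-- free row column 26 -/
def rf26 : RFz := ⟨⟨1, 6, 1, [(0, 1)]⟩, [0, 817812211325270400, -1617548616002073600, 33037456559362200, 1516451827501944000, -749752879384503000],
    .mul (.pow (.P) 2) (.add (.add (.mul (.c (-400)) (.P)) (.mul (.mul (.c 240) (.T)) (.v))) (.mul (.mul (.c 240) (.T)) (.t))),
    .mul (.pow (.P) 2) (.mul (.c (-2)) (.P))⟩

/-- free row column 27 -/
def rf27 : RFz := ⟨⟨1, 6, 3, [(0, 1)]⟩, [0, 0, 0, 1755409131500947200, -3421828142997595200, 1666117509743340000],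
    .mul (.pow (.P) 2) (.add (.add (.add (.add (.add (.add (.add (.add (.add (.add (.mul (.mul (.c (-6)) (.P)) (.pow (.v) 2)) (.mul (.mul (.c (-480)) (.P)) (.pow (.u) 2))) (.mul (.mul (.mul (.c (-12)) (.P)) (.t)) (.v))) (.mul (.mul (.c (-2886)) (.P)) (.pow (.t) 2))) (.mul (.mul (.mul (.c (-12)) (.P)) (.s)) (.v))) (.mul (.mul (.mul (.c (-12)) (.P)) (.s)) (.t))) (.mul (.mul (.c 6) (.P)) (.w))) (.mul (.mul (.mul (.c 6) (.P)) (.w)) (.s))) (.mul (.mul (.mul (.c 240) (.T)) (.pow (.u) 2)) (.v))) (.mul (.mul (.mul (.c 240) (.T)) (.t)) (.pow (.u) 2))) (.mul (.mul (.mul (.c (-1440)) (.T)) (.s)) (.pow (.t) 2))),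
    .mul (.pow (.P) 2) (.mul (.mul (.c (-6)) (.P)) (.pow (.t) 2))⟩

/-- free row column 28 -/
def rf28 : RFz := ⟨⟨1, 7, 0, [(0, 1)]⟩, [10222652641565880, -20219357700025920, -10448600224671720, 40438715400051840, -9770757475354200, -20219357700025920, 9996705058460040],
    .c 0,
    .c 0⟩

/-- free row column 29 -/
def rf29 : RFz := ⟨⟨1, 7, 1, [(0, 1)]⟩, [0, 486356642522586000, -886677097490949600, -163938977044135200, 964579886980862400, -322417665478450800, -77902789489912800],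
    .mul (.P) (.add (.add (.mul (.c (-400)) (.P)) (.mul (.mul (.c 280) (.T)) (.v))) (.mul (.mul (.c 280) (.T)) (.t))),
    .mul (.P) (.mul (.c (-2)) (.P))⟩

/-- free row column 30 -/
def rf30 : RFz := ⟨⟨1, 7, 3, [(0, 1)]⟩, [0, 0, 0, -165173263704720000, 828605250068976000, -1182783916297008000, 519351929932752000],
    .mul (.P) (.add (.add (.add (.add (.add (.add (.add (.add (.add (.add (.mul (.mul (.c (-6)) (.P)) (.pow (.v) 2)) (.mul (.mul (.c (-480)) (.P)) (.pow (.u) 2))) (.mul (.mul (.mul (.c (-12)) (.P)) (.t)) (.v))) (.mul (.mul (.c (-2886)) (.P)) (.pow (.t) 2))) (.mul (.mul (.mul (.c (-12)) (.P)) (.s)) (.v))) (.mul (.mul (.mul (.c (-12)) (.P)) (.s)) (.t))) (.mul (.mul (.c 6) (.P)) (.w))) (.mul (.mul (.mul (.c 6) (.P)) (.w)) (.s))) (.mul (.mul (.mul (.c 280) (.T)) (.pow (.u) 2)) (.v))) (.mul (.mul (.mul (.c 280) (.T)) (.t)) (.pow (.u) 2))) (.mul (.mul (.mul (.c (-1680)) (.T)) (.s)) (.pow (.t) 2))),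
    .mul (.P) (.mul (.mul (.c (-6)) (.P)) (.pow (.t) 2))⟩

/-- free row column 31 -/
def rf31 : RFz := ⟨⟨1, 8, 1, [(0, 1)]⟩, [0, -715585684909611600, 1415355039001814400, 731402015727020400, -2830710078003628800, 683953023274794000, 1415355039001814400, -699769354092202800],
    .add (.add (.mul (.c (-400)) (.P)) (.mul (.mul (.c 320) (.T)) (.v))) (.mul (.mul (.c 320) (.T)) (.t)),
    .mul (.c (-2)) (.P)⟩

/-- free row column 32 -/
def rf32 : RFz := ⟨⟨1, 8, 3, [(0, 1)]⟩, [0, 0, 0, -4770571232730744000, 9435700260012096000, 105442205449392000, -9435700260012096000, 4665129027281352000],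
    .add (.add (.add (.add (.add (.add (.add (.add (.add (.add (.mul (.mul (.c (-6)) (.P)) (.pow (.v) 2)) (.mul (.mul (.c (-480)) (.P)) (.pow (.u) 2))) (.mul (.mul (.mul (.c (-12)) (.P)) (.t)) (.v))) (.mul (.mul (.c (-2886)) (.P)) (.pow (.t) 2))) (.mul (.mul (.mul (.c (-12)) (.P)) (.s)) (.v))) (.mul (.mul (.mul (.c (-12)) (.P)) (.s)) (.t))) (.mul (.mul (.c 6) (.P)) (.w))) (.mul (.mul (.mul (.c 6) (.P)) (.w)) (.s))) (.mul (.mul (.mul (.c 320) (.T)) (.pow (.u) 2)) (.v))) (.mul (.mul (.mul (.c 320) (.T)) (.t)) (.pow (.u) 2))) (.mul (.mul (.mul (.c (-1920)) (.T)) (.s)) (.pow (.t) 2)),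
    .mul (.mul (.c (-6)) (.P)) (.pow (.t) 2)⟩

/-- free row column 33 -/
def rf33 : RFz := ⟨⟨1, 4, 0, [(1, 1)]⟩, [0, -9680123864236896, 24228125021968686, -14578528210254225],
    .c 0,
    .c 0⟩

/-- free row column 34 -/
def rf34 : RFz := ⟨⟨1, 5, 1, [(1, 1)]⟩, [0, 0, 356231558358392400, -855162306021470400, 499835252923002000],
    .mul (.pow (.P) 3) (.add (.add (.add (.add (.mul (.mul (.c 40) (.P)) (.v)) (.mul (.mul (.c 40) (.P)) (.t))) (.mul (.mul (.c (-400)) (.P)) (.s))) (.mul (.mul (.mul (.c 200) (.T)) (.s)) (.v))) (.mul (.mul (.mul (.c 200) (.T)) (.s)) (.t))),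
    .mul (.pow (.P) 3) (.mul (.mul (.c (-2)) (.P)) (.s))⟩

/-- free row column 35 -/
def rf35 : RFz := ⟨⟨1, 6, 3, [(1, 1)]⟩, [0, 0, 0, 0, 206534764959868800, -207740771973100800],
    .mul (.pow (.P) 2) (.add (.add (.add (.add (.add (.add (.add (.add (.add (.add (.add (.add (.mul (.mul (.mul (.c 40) (.P)) (.pow (.u) 2)) (.v)) (.mul (.mul (.mul (.c 40) (.P)) (.t)) (.pow (.u) 2))) (.mul (.mul (.mul (.c (-6)) (.P)) (.s)) (.pow (.v) 2))) (.mul (.mul (.mul (.c (-480)) (.P)) (.s)) (.pow (.u) 2))) (.mul (.mul (.mul (.mul (.c (-12)) (.P)) (.s)) (.t)) (.v))) (.mul (.mul (.mul (.c (-3126)) (.P)) (.s)) (.pow (.t) 2))) (.mul (.mul (.mul (.c (-12)) (.P)) (.pow (.s) 2)) (.v))) (.mul (.mul (.mul (.c (-12)) (.P)) (.pow (.s) 2)) (.t))) (.mul (.mul (.mul (.c 6) (.P)) (.w)) (.s))) (.mul (.mul (.mul (.c 6) (.P)) (.w)) (.pow (.s) 2))) (.mul (.mul (.mul (.mul (.c 240) (.T)) (.s)) (.pow (.u) 2)) (.v))) (.mul (.mul (.mul (.mul (.c 240) (.T)) (.s)) (.t))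 (.pow (.u) 2))) (.mul (.mul (.mul (.c (-1440)) (.T)) (.pow (.s) 2)) (.pow (.t) 2))),
    .mul (.pow (.P) 2) (.mul (.mul (.mul (.c (-6)) (.P)) (.s)) (.pow (.t) 2))⟩

/-- free row column 36 -/
def rf36 : RFz := ⟨⟨1, 4, 0, [(2, 1)]⟩, [0, 0, -4130695299197376, 4154815439462016],
    .c 0,
    .c 0⟩

/-- free row column 37 -/
def rf37 : RFz := ⟨⟨1, 5, 1, [(2, 1)]⟩, [0, 0, 0, 108430751603931120, -109063905285877920],
    .mul (.mul (.s) (.pow (.P) 3)) (.add (.add (.add (.add (.mul (.mul (.c 80) (.P)) (.v)) (.mul (.mul (.c 80) (.P)) (.t))) (.mul (.mul (.c (-400)) (.P)) (.s))) (.mul (.mul (.mul (.c 200) (.T)) (.s)) (.v))) (.mul (.mul (.mul (.c 200) (.T)) (.s)) (.t))),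
    .mul (.mul (.s) (.pow (.P) 3)) (.mul (.mul (.c (-2)) (.P)) (.s))⟩

/-- free row column 38 -/
def rf38 : RFz := ⟨⟨3, 5, 0, [(0, 1)]⟩, [0, -25816845619983600, 25967596496637600, 30980214743980320, -31161115795965120],
    .mul (.pow (.P) 3) (.add (.mul (.c 360) (.P)) (.mul (.mul (.c 200) (.T)) (.s))),
    .c 0⟩

/-- free row column 39 -/
def rf39 : RFz := ⟨⟨3, 6, 0, [(0, 1)]⟩, [0, 230269898451301200, -430354750497156000, -64411306087320000, 497752609497242400, -233256451364067600],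
    .mul (.pow (.P) 2) (.add (.mul (.c 360) (.P)) (.mul (.mul (.c 240) (.T)) (.s))),
    .c 0⟩

/-- free row column 40 -/
def rf40 : RFz := ⟨⟨3, 6, 2, [(0, 1)]⟩, [0, 0, 0, 14200078556000711520, -29486625396527279520, 15294958739443861200],
    .mul (.pow (.P) 2) (.add (.add (.add (.add (.add (.add (.add (.add (.add (.add (.add (.add (.mul (.mul (.c 440) (.P)) (.pow (.u) 2)) (.mul (.mul (.mul (.c 22) (.P)) (.s)) (.v))) (.mul (.mul (.mul (.c 22) (.P)) (.s)) (.t))) (.mul (.mul (.c 18) (.P)) (.pow (.s) 2))) (.mul (.mul (.c (-4)) (.P)) (.w))) (.mul (.mul (.mul (.c (-4)) (.P)) (.w)) (.s))) (.mul (.mul (.mul (.c 240) (.T)) (.s)) (.pow (.u) 2))) (.mul (.mul (.mul (.c (-12)) (.T)) (.w)) (.v))) (.mul (.mul (.mul (.c (-12)) (.T)) (.w)) (.t))) (.mul (.mul (.mul (.c (-12)) (.T)) (.w)) (.s))) (.mul (.mul (.mul (.mul (.c (-12)) (.T)) (.w)) (.s)) (.v))) (.mul (.mul (.mul (.mul (.c (-12)) (.T)) (.w)) (.s)) (.t))) (.mul (.mul (.mul (.c (-12)) (.T))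 (.w)) (.pow (.s) 2))),
    .c 0⟩

/-- free row column 41 -/
def rf41 : RFz := ⟨⟨3, 6, 3, [(0, 1)]⟩, [0, 0, 0, 0, 516336912399672000, -519351929932752000],
    .mul (.pow (.P) 2) (.add (.add (.add (.add (.add (.add (.add (.add (.add (.add (.add (.add (.add (.add (.mul (.mul (.mul (.c 1440) (.P)) (.t)) (.pow (.u) 2)) (.mul (.mul (.c (-960)) (.P)) (.pow (.t) 3))) (.mul (.mul (.mul (.mul (.c 72) (.P)) (.s)) (.t)) (.v))) (.mul (.mul (.mul (.c 72) (.P)) (.s)) (.pow (.t) 2))) (.mul (.mul (.mul (.c 66) (.P)) (.pow (.s) 2)) (.t))) (.mul (.mul (.mul (.c (-6)) (.P)) (.w)) (.t))) (.mul (.mul (.mul (.mul (.c (-6)) (.P)) (.w)) (.s)) (.t))) (.mul (.mul (.mul (.mul (.c 720) (.T)) (.s)) (.t)) (.pow (.u) 2))) (.mul (.mul (.mul (.c (-480)) (.T)) (.s)) (.pow (.t) 3))) (.mul (.mul (.mul (.mul (.c (-36)) (.T)) (.w)) (.t)) (.v))) (.mul (.mul (.mul (.c (-36)) (.T)) (.w)) (.pow (.t) 2))) (.mul (.mul (.mul (.mul (.c (-36)) (.T)) (.w)) (.s)) (.t))) (.mul (.mul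 (.mul (.mul (.mul (.c (-36)) (.T)) (.w)) (.s)) (.t)) (.v))) (.mul (.mul (.mul (.mul (.c (-36)) (.T)) (.w)) (.s)) (.pow (.t) 2))) (.mul (.mul (.mul (.mul (.c (-36)) (.T)) (.w)) (.pow (.s) 2)) (.t))),
    .c 0⟩

/-- free row column 42 -/
def rf42 : RFz := ⟨⟨3, 7, 0, [(0, 1)]⟩, [0, -204453052831317600, 404387154000518400, 4518951662116800, -404387154000518400, 199934101169200800],
    .mul (.P) (.add (.mul (.c 360) (.P)) (.mul (.mul (.c 280) (.T)) (.s))),
    .c 0⟩

/-- free row column 43 -/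
def rf43 : RFz := ⟨⟨3, 7, 2, [(0, 1)]⟩, [0, 0, 0, -495519791114160000, 2485815750206928000, -3548351748891024000, 1558055789798256000],
    .mul (.P) (.add (.add (.add (.add (.add (.add (.add (.add (.add (.add (.add (.add (.mul (.mul (.c 440) (.P)) (.pow (.u) 2)) (.mul (.mul (.mul (.c 22) (.P)) (.s)) (.v))) (.mul (.mul (.mul (.c 22) (.P)) (.s)) (.t))) (.mul (.mul (.c 18) (.P)) (.pow (.s) 2))) (.mul (.mul (.c (-4)) (.P)) (.w))) (.mul (.mul (.mul (.c (-4)) (.P)) (.w)) (.s))) (.mul (.mul (.mul (.c 280) (.T)) (.s)) (.pow (.u) 2))) (.mul (.mul (.mul (.c (-14)) (.T)) (.w)) (.v))) (.mul (.mul (.mul (.c (-14)) (.T)) (.w)) (.t))) (.mul (.mul (.mul (.c (-14)) (.T)) (.w)) (.s))) (.mul (.mul (.mul (.mul (.c (-14)) (.T)) (.w)) (.s)) (.v))) (.mul (.mul (.mul (.mul (.c (-14)) (.T)) (.w)) (.s)) (.t))) (.mul (.mul (.mul (.c (-14)) (.T)) (.w)) (.pow (.s) 2))),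
    .c 0⟩

/-- free row column 44 -/
def rf44 : RFz := ⟨⟨3, 7, 3, [(0, 1)]⟩, [0, 0, 0, 0, -4089061056626352000, 8087743080010368000, -3998682023384016000],
    .mul (.P) (.add (.add (.add (.add (.add (.add (.add (.add (.add (.add (.add (.add (.add (.add (.mul (.mul (.mul (.c 1440) (.P)) (.t)) (.pow (.u) 2)) (.mul (.mul (.c (-960)) (.P)) (.pow (.t) 3))) (.mul (.mul (.mul (.mul (.c 72) (.P)) (.s)) (.t)) (.v))) (.mul (.mul (.mul (.c 72) (.P)) (.s)) (.pow (.t) 2))) (.mul (.mul (.mul (.c 66) (.P)) (.pow (.s) 2)) (.t))) (.mul (.mul (.mul (.c (-6)) (.P)) (.w)) (.t))) (.mul (.mul (.mul (.mul (.c (-6)) (.P)) (.w)) (.s)) (.t))) (.mul (.mul (.mul (.mul (.c 840) (.T)) (.s)) (.t)) (.pow (.u) 2))) (.mul (.mul (.mul (.c (-560)) (.T)) (.s)) (.pow (.t) 3))) (.mul (.mul (.mul (.mul (.c (-42)) (.T)) (.w)) (.t)) (.v))) (.mul (.mul (.mul (.c (-42)) (.T)) (.w)) (.pow (.t) 2))) (.mul (.mul (.mul (.mul (.c (-42)) (.T)) (.w)) (.s)) (.t))) (.mul (.mul (.mul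 (.mul (.mul (.c (-42)) (.T)) (.w)) (.s)) (.t)) (.v))) (.mul (.mul (.mul (.mul (.c (-42)) (.T)) (.w)) (.s)) (.pow (.t) 2))) (.mul (.mul (.mul (.mul (.c (-42)) (.T)) (.w)) (.pow (.s) 2)) (.t))),
    .c 0⟩

/-- free row column 45 -/
def rf45 : RFz := ⟨⟨3, 7, 4, [(0, 1)]⟩, [0, 0, 0, 0, 0, 10326738247993440000, -10387038598655040000],
    .mul (.P) (.add (.add (.add (.add (.add (.add (.add (.add (.add (.add (.add (.add (.add (.add (.add (.add (.add (.add (.add (.add (.add (.add (.add (.add (.add (.mul (.mul (.c 520) (.P)) (.pow (.u) 4)) (.mul (.mul (.mul (.c 2600) (.P)) (.pow (.t) 2)) (.pow (.u) 2))) (.mul (.mul (.c (-2600)) (.P)) (.pow (.t) 4))) (.mul (.mul (.mul (.mul (.c 26) (.P)) (.s)) (.pow (.u) 2)) (.v))) (.mul (.mul (.mul (.mul (.c 26) (.P)) (.s)) (.t)) (.pow (.u) 2))) (.mul (.mul (.mul (.mul (.c 156) (.P)) (.s)) (.pow (.t) 2)) (.v))) (.mul (.mul (.mul (.c 156) (.P)) (.s)) (.pow (.t) 3))) (.mul (.mul (.mul (.c 18) (.P)) (.pow (.s)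 2)) (.pow (.u) 2))) (.mul (.mul (.mul (.c 156) (.P)) (.pow (.s) 2)) (.pow (.t) 2))) (.mul (.mul (.mul (.c (-8)) (.P)) (.w)) (.pow (.u) 2))) (.mul (.mul (.mul (.mul (.c (-8)) (.P)) (.w)) (.s)) (.pow (.u) 2))) (.mul (.mul (.mul (.c 280) (.T)) (.s)) (.pow (.u) 4))) (.mul (.mul (.mul (.mul (.c 1400) (.T)) (.s)) (.pow (.t) 2)) (.pow (.u) 2))) (.mul (.mul (.mul (.c (-1400)) (.T)) (.s)) (.pow (.t) 4))) (.mul (.mul (.mul (.mul (.c (-14)) (.T)) (.w)) (.pow (.u) 2)) (.v))) (.mul (.mul (.mul (.mul (.c (-14)) (.T)) (.w)) (.t)) (.pow (.u) 2))) (.mul (.mul (.mul (.mul (.c (-84)) (.T)) (.w)) (.pow (.t) 2)) (.v))) (.mul (.mul (.mul (.c (-84)) (.T)) (.w)) (.pow (.t) 3))) (.mul (.mul (.mul (.mul (.c (-14)) (.T)) (.w)) (.s)) (.pow (.u) 2))) (.mul (.mul (.mul (.mul (.mul (.c (-14)) (.T)) (.w)) (.s)) (.pow (.u) 2)) (.v))) (.mul (.mul (.mul (.mul (.mul (.c (-14)) (.T)) (.w)) (.s)) (.t)) (.pow (.u) 2))) (.mul (.mul (.mul (.mul (.c (-84)) (.T)) (.w)) (.s))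 (.pow (.t) 2))) (.mul (.mul (.mul (.mul (.mul (.c (-84)) (.T)) (.w)) (.s)) (.pow (.t) 2)) (.v))) (.mul (.mul (.mul (.mul (.c (-84)) (.T)) (.w)) (.s)) (.pow (.t) 3))) (.mul (.mul (.mul (.mul (.c (-14)) (.T)) (.w)) (.pow (.s) 2)) (.pow (.u) 2))) (.mul (.mul (.mul (.mul (.c (-84)) (.T)) (.w)) (.pow (.s) 2)) (.pow (.t) 2))),
    .c 0⟩

/-- free row column 46 -/
def rf46 : RFz := ⟨⟨3, 8, 2, [(0, 1)]⟩, [0, 0, 0, -14311713698192232000, 28307100780036288000, 316326616348176000, -28307100780036288000, 13995387081844056000],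
    .add (.add (.add (.add (.add (.add (.add (.add (.add (.add (.add (.add (.mul (.mul (.c 440) (.P)) (.pow (.u) 2)) (.mul (.mul (.mul (.c 22) (.P)) (.s)) (.v))) (.mul (.mul (.mul (.c 22) (.P)) (.s)) (.t))) (.mul (.mul (.c 18) (.P)) (.pow (.s) 2))) (.mul (.mul (.c (-4)) (.P)) (.w))) (.mul (.mul (.mul (.c (-4)) (.P)) (.w)) (.s))) (.mul (.mul (.mul (.c 320) (.T)) (.s)) (.pow (.u) 2))) (.mul (.mul (.mul (.c (-16)) (.T)) (.w)) (.v))) (.mul (.mul (.mul (.c (-16)) (.T)) (.w)) (.t))) (.mul (.mul (.mul (.c (-16)) (.T)) (.w)) (.s))) (.mul (.mul (.mul (.mul (.c (-16)) (.T)) (.w)) (.s)) (.v))) (.mul (.mul (.mul (.mul (.c (-16)) (.T)) (.w)) (.s)) (.t))) (.mul (.mul (.mul (.c (-16)) (.T)) (.w)) (.pow (.s) 2)),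
    .c 0⟩

/-- free row column 47 -/
def rf47 : RFz := ⟨⟨3, 8, 4, [(0, 1)]⟩, [0, 0, 0, 0, 0, -95411424654614880000, 188714005200241920000, -93302580545627040000],
    .add (.add (.add (.add (.add (.add (.add (.add (.add (.add (.add (.add (.add (.add (.add (.add (.add (.add (.add (.add (.add (.add (.add (.add (.add (.mul (.mul (.c 520) (.P)) (.pow (.u) 4)) (.mul (.mul (.mul (.c 2600) (.P)) (.pow (.t) 2)) (.pow (.u) 2))) (.mul (.mul (.c (-2600)) (.P)) (.pow (.t) 4))) (.mul (.mul (.mul (.mul (.c 26) (.P)) (.s)) (.pow (.u) 2)) (.v))) (.mul (.mul (.mul (.mul (.c 26) (.P)) (.s)) (.t)) (.pow (.u) 2))) (.mul (.mul (.mul (.mul (.c 156) (.P)) (.s)) (.pow (.t) 2)) (.v))) (.mul (.mul (.mul (.c 156) (.P)) (.s)) (.pow (.t) 3))) (.mul (.mul (.mul (.c 18) (.P)) (.pow (.s) 2)) (.pow (.u) 2))) (.mul (.mul (.mul (.c 156) (.P)) (.pow (.s) 2)) (.pow (.t) 2))) (.mul (.mul (.mul (.c (-8)) (.P)) (.w)) (.pow (.u) 2))) (.mul (.mul (.mul (.mul (.c (-8)) (.P))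 (.w)) (.s)) (.pow (.u) 2))) (.mul (.mul (.mul (.c 320) (.T)) (.s)) (.pow (.u) 4))) (.mul (.mul (.mul (.mul (.c 1600) (.T)) (.s)) (.pow (.t) 2)) (.pow (.u) 2))) (.mul (.mul (.mul (.c (-1600)) (.T)) (.s)) (.pow (.t) 4))) (.mul (.mul (.mul (.mul (.c (-16)) (.T)) (.w)) (.pow (.u) 2)) (.v))) (.mul (.mul (.mul (.mul (.c (-16)) (.T)) (.w)) (.t)) (.pow (.u) 2))) (.mul (.mul (.mul (.mul (.c (-96)) (.T)) (.w)) (.pow (.t) 2)) (.v))) (.mul (.mul (.mul (.c (-96)) (.T)) (.w)) (.pow (.t) 3))) (.mul (.mul (.mul (.mul (.c (-16)) (.T)) (.w)) (.s)) (.pow (.u) 2))) (.mul (.mul (.mul (.mul (.mul (.c (-16)) (.T)) (.w)) (.s)) (.pow (.u) 2)) (.v))) (.mul (.mul (.mul (.mul (.mul (.c (-16)) (.T)) (.w)) (.s)) (.t)) (.pow (.u) 2))) (.mul (.mul (.mul (.mul (.c (-96)) (.T)) (.w)) (.s)) (.pow (.t) 2))) (.mul (.mul (.mul (.mul (.mul (.c (-96)) (.T)) (.w)) (.s)) (.pow (.t) 2)) (.v))) (.mul (.mul (.mul (.mul (.c (-96)) (.T)) (.w)) (.s)) (.pow (.t) 3))) (.mul (.mul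 (.mul (.mul (.c (-16)) (.T)) (.w)) (.pow (.s) 2)) (.pow (.u) 2))) (.mul (.mul (.mul (.mul (.c (-96)) (.T)) (.w)) (.pow (.s) 2)) (.pow (.t) 2)),
    .c 0⟩

/-- free row column 48 -/
def rf48 : RFz := ⟨⟨3, 5, 0, [(1, 1)]⟩, [0, 0, 178636207211334000, -378419557503880800, 199934101169200800],
    .mul (.pow (.P) 3) (.add (.mul (.mul (.c 400) (.P)) (.s)) (.mul (.mul (.c 200) (.T)) (.pow (.s) 2))),
    .c 0⟩

/-- free row column 49 -/
def rf49 : RFz := ⟨⟨3, 6, 2, [(1, 1)]⟩, [0, 0, 0, 0, 2215085354194592880, -2228019779411506080],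
    .mul (.pow (.P) 2) (.add (.add (.add (.add (.add (.add (.add (.add (.add (.add (.add (.add (.add (.add (.add (.add (.mul (.mul (.mul (.c 480) (.P)) (.s)) (.pow (.u) 2)) (.mul (.mul (.mul (.c 22) (.P)) (.pow (.s) 2)) (.v))) (.mul (.mul (.mul (.c 22) (.P)) (.pow (.s) 2)) (.t))) (.mul (.mul (.c 18) (.P)) (.pow (.s) 3))) (.mul (.mul (.mul (.c (-2)) (.P)) (.w)) (.v))) (.mul (.mul (.mul (.c (-2)) (.P)) (.w)) (.t))) (.mul (.mul (.mul (.c (-6)) (.P)) (.w)) (.s))) (.mul (.mul (.mul (.mul (.c (-2)) (.P)) (.w)) (.s)) (.v))) (.mul (.mul (.mul (.mul (.c (-2)) (.P)) (.w)) (.s)) (.t))) (.mul (.mul (.mul (.c (-6)) (.P)) (.w)) (.pow (.s) 2))) (.mul (.mul (.mul (.c 240) (.T)) (.pow (.s) 2)) (.pow (.u) 2))) (.mul (.mul (.mul (.mul (.c (-12)) (.T)) (.w)) (.s)) (.v))) (.mul (.mul (.mul (.mul (.c (-12)) (.T)) (.w)) (.s)) (.t))) (.mul (.mul (.mul (.c (-12)) (.T)) (.w)) (.pow (.s) 2))) (.mul (.mul (.mul (.mul (.c (-12)) (.T)) (.w)) (.pow (.s) 2)) (.v)))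 (.mul (.mul (.mul (.mul (.c (-12)) (.T)) (.w)) (.pow (.s) 2)) (.t))) (.mul (.mul (.mul (.c (-12)) (.T)) (.w)) (.pow (.s) 3))),
    .c 0⟩

/-- free row column 50 -/
def rf50 : RFz := ⟨⟨3, 5, 0, [(2, 1)]⟩, [0, 0, 0, 36143583867977040, -36354635095292640],
    .mul (.mul (.s) (.pow (.P) 3)) (.add (.mul (.mul (.c 440) (.P)) (.s)) (.mul (.mul (.c 200) (.T)) (.pow (.s) 2))),
    .c 0⟩

/-- the free value columns -/
def lf : List VFz := [vf0, vf1, vf2, vf3, vf4, vf5, vf6, vf7, vf8, vf9, vf10, vf11, vf12, vf13, vf14, vf15, vf16, vf17, vf18, vf19, vf20, vf21, vf22, vf23, vf24, vf25, vf26, vf27, vf28, vf29, vf30, vf31, vf32, vf33, vf34, vf35, vf36, vf37, vf38, vf39, vf40, vf41, vf42, vf43, vf44, vf45, vf46, vf47, vf48, vf49, vf50, vf51, vf52, vf53, vf54, vf55, vf56, vf57, vf58, vf59, vf60, vf61, vf62, vf63, vf64, vf65, vf66, vf67, vf68, vf69, vf70, vf71, vf72, vf73, vf74, vf75, vf76, vf77, vf78, vf79, vf80, vf81, vf82, vf83, vf84, vf85, vf86,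 vf87, vf88, vf89, vf90, vf91, vf92, vf93, vf94, vf95, vf96, vf97, vf98, vf99, vf100, vf101, vf102, vf103, vf104, vf105, vf106, vf107, vf108, vf109, vf110, vf111, vf112, vf113, vf114, vf115, vf116, vf117, vf118, vf119, vf120, vf121, vf122, vf123, vf124, vf125, vf126, vf127, vf128, vf129, vf130, vf131, vf132, vf133, vf134, vf135, vf136, vf137, vf138, vf139, vf140, vf141, vf142, vf143, vf144, vf145, vf146, vf147, vf148, vf149, vf150, vf151, vf152, vf153, vf154, vf155, vf156, vf157, vf158, vf159, vf160, vf161, vf162, vf163, vf164, vf165, vf166, vf167, vf168, vf169, vf170, vf171, vf172, vf173, vf174, vf175, vf176, vf177, vf178, vf179, vf180]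

/-- the free row columns -/
def rf : List RFz := [rf0, rf1, rf2, rf3, rf4, rf5, rf6, rf7, rf8, rf9, rf10, rf11, rf12, rf13, rf14, rf15, rf16, rf17, rf18, rf19, rf20, rf21, rf22, rf23, rf24, rf25, rf26, rf27, rf28, rf29, rf30, rf31, rf32, rf33, rf34, rf35, rf36, rf37, rf38, rf39, rf40, rf41, rf42, rf43, rf44, rf45, rf46, rf47, rf48, rf49, rf50]

/-- all columns -/
def cl : List Cz := clZ (VD dl c0 kB kF lb lf) (RD dl c0 kB kF rb rf)

set_option maxRecDepth 100000 in
lemma ok_all : okD lb lf rb rf = true := by decide +kernel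

set_option maxRecDepth 100000 in
/-- the errors -/
lemma err_ok : errZ 12 3 5 cl 231158159820000 1541054480000 = true := by decide +kernel

end

end Vale.Agent.P224.S9.Z9
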