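import Vale.Agent.P224.S9.Z9.Fr

/-!
The truncation identities of the columns.
-/

namespace Vale.Agent.P224.S9.Z9

open Vale.Agent.P224.POS Vale.Agent.P224.S9
open Vale.Agent.P224.SP (ev Q4)

noncomputable section

/-- the integers replacing the variables -/
def MsT : List Nat := [
  Nat.add (Nat.pow 2 61) 656247381085762037,
  Nat.add (Nat.pow 2 627) 924948642789419743,
  Nat.add (Nat.pow 2 4462) 72757217426062277,
  Nat.add (Nat.pow 2 27471) 135951006097486909,
  Nat.add (Nat.pow 2 72918) 877329965204690299]

set_option maxRecDepth 100000 in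
lemma tr_all : (cl.all fun c => Vale.Agent.P224.POS.chk MsT c.tr) = true := by decide +kernel

/-- the truncation identities -/
theorem tr_eq {R' : Type*} [CommRing R'] (f : ℕ → R') (hf : ∀ i, 5 ≤ i → f i = 0) :
    ∀ c ∈ cl, PE.ev f c.tr = 0 := fun c hc =>
  Vale.Agent.P224.POS.ev_eq_zero_of_chk (List.all_eq_true.1 tr_all c hc) f fun i hi => hf i (by
    have : MsT.length = 5 := rfl
    omega)

end

end Vale.Agent.P224.S9.Z9
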